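import Vale.Agent.P236Z.Det.Defs
import Vale.Agent.P251.F.Framed

/-!
# P236, block DET: the central element `4` acts trivially on cohomology
-/

namespace Vale.Agent.P236Z.Det

open Vale.Agent.P217 Vale.Agent.P251.F Vale.Agent.P251.F.Cob LawRing InvSeries

namespace Sah

variable {B B' : Type} [CommRing B] [CommRing B'] {n m : ℕ}

/-- the strict part -/
noncomputable def st (g : InvSeries B) : InvSeries B := (lin g.lead)⁻¹ * g

theorem st_mem (g : InvSeries B) : st g ∈ strict B := by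
  have h : ((st g).lead : B) = 1 := by
    rw [st, lead_mul, lead_inv, lead_lin, inv_mul_cancel, Units.val_one]
  exact h

theorem st_of_mem {g : InvSeries B} (h : g ∈ strict B) : st g = g := by
  rw [st, lead_eq_one h, map_one, inv_one, one_mul]

theorem st_mul (a g : InvSeries B) : st (a * g) = (lin g.lead)⁻¹ * st a * g := by
  rw [st, st, lead_mul, map_mul, mul_inv_rev]
  simp only [mul_assoc]

theorem map_st (φ : B →+* B') (g : InvSeries B) : InvSeries.map φ (st g) = st (InvSeries.map φ g) := by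
  rw [st, st, map_mul, map_inv, map_lin, lead_map]

/-- chains in homogeneous coordinates -/
noncomputable def ch (F : Laz →+* B) (a : Fin (n + 1) → InvSeries B) : Chain Laz n B where
  pt := act (st (a 0)) F
  g i := st (a i) * (st (a 0))⁻¹
  strict _ := mul_mem (st_mem _) (inv_mem (st_mem _))
  zero := mul_inv_cancel _

theorem ch_res (F : Laz →+* B) (a : Fin (n + 1) → InvSeries B) (α : Fin (m + 1) → Fin (n + 1)) :
    (ch F a).res α = ch F fun i => a (α i) := by
  ext1
  · change act (st (a (α 0)) * (st (a 0))⁻¹) (act (st (a 0)) F) = act (st (a (α 0))) F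
    rw [← act_mul, inv_mul_cancel_right]
  · funext i
    change st (a (α i)) * (st (a 0))⁻¹ * (st (a (α 0)) * (st (a 0))⁻¹)⁻¹ =
      st (a (α i)) * (st (a (α 0)))⁻¹
    group

theorem ch_mul (F : Laz →+* B) (a : Fin (n + 1) → InvSeries B) (g : InvSeries B) :
    (ch F fun i => a i * g) = (ch (act g F) a).scale g.lead := by
  ext1
  · change act (st (a 0 * g)) F = act (lin g.lead)⁻¹ (act (st (a 0)) (act g F))
    rw [st_mul, act_mul, act_mul]
  · funext i
    change st (a i * g) * (st (a 0 * g))⁻¹ =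
      (lin g.lead)⁻¹ * (st (a i) * (st (a 0))⁻¹) * lin g.lead
    rw [st_mul, st_mul]
    group

theorem ch_map (φ : B →+* B') (F : Laz →+* B) (a : Fin (n + 1) → InvSeries B) :
    (ch F a).map φ = ch (φ.comp F) fun i => InvSeries.map φ (a i) := by
  ext1
  · change φ.comp (act (st (a 0)) F) = act _ _
    rw [comp_act, map_st]
  · funext i
    change InvSeries.map φ (st (a i) * (st (a 0))⁻¹) = _ * _
    rw [map_mul, map_inv, map_st, map_st]

theorem ch_self (c : Chain Laz n B) : ch c.pt c.g = c := by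
  ext1
  · change act (st (c.g 0)) c.pt = _
    rw [st_of_mem (c.strict 0), c.zero, act_one]
  · funext i
    change st (c.g i) * (st (c.g 0))⁻¹ = _
    rw [st_of_mem (c.strict 0), st_of_mem (c.strict i), c.zero, inv_one, mul_one]

variable {N : ℕ}

theorem unit4 (h : (3 : B) ^ N = 0) : IsUnit ((4 : ℕ) : B) := by
  rw [show ((4 : ℕ) : B) = 1 + 3 by norm_num]
  exact IsNilpotent.isUnit_one_add ⟨N, h⟩

/-- multiplication by four -/
noncomputable def gam (h : (3 : B) ^ N = 0) (F : Laz →+* B) : InvSeries B :=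
  ⟨multSeries (Laz.univ.map F).toFG 4, constantCoeff_multSeries _ _, by
    rw [coeff_one_multSeries]; exact unit4 h⟩

variable (h : (3 : B) ^ N = 0)

theorem gam_val (F : Laz →+* B) : (gam h F).val = multSeries (Laz.univ.map F).toFG 4 := rfl

theorem act_gam (F : Laz →+* B) : act (gam h F) F = F := by
  rw [Laz.act_eq, (smul_eq_iff_isHom (gam h F) _ _).2 (isHom_multSeries _ 4), Laz.lift_map_univ]

theorem gam_act (g : InvSeries B) (F : Laz →+* B) : gam h (act g F) * g = g * gam h F := by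
  ext1
  rw [mul_val, mul_val, gam_val, gam_val, Laz.act_eq, Laz.univ_map_lift]
  exact (smul_multSeries g _ 4).symm

theorem map_gam (φ : B →+* B') (h' : (3 : B') ^ N = 0) (F : Laz →+* B) :
    InvSeries.map φ (gam h F) = gam h' (φ.comp F) := by
  ext1
  rw [map_val, gam_val, gam_val, ← Law.map_map]
  exact map_multSeries _ _ 4

theorem ev_gam {k : ℕ} {x : Cob Laz n} (hx : IsWt (k : ℤ) x) (F : Laz →+* B)
    (a : Fin (n + 1) → InvSeries B) :
    ev (ch F fun i => a i * gam h F) x = 4 ^ k * ev (ch F a) x := by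
  rw [ch_mul, act_gam, hx, zpow_natCast, Units.val_pow_eq_pow_val, lead_val]
  congr 2
  exact (coeff_one_multSeries 4).trans (by norm_num)

include h in
theorem ev_zero {y : Cob Laz n} (hy : (3 : Cob Laz n) ^ N ∣ y) (c : Chain Laz n B) : ev c y = 0 := by
  obtain ⟨r, rfl⟩ := hy
  rw [map_mul, map_pow, map_ofNat, h, zero_mul]

/-- the value of a cochain of degree two -/
noncomputable def E (x : Cob Laz 2) (F : Laz →+* B) (a b c : InvSeries B) : B :=
  ev (ch F ![a, b, c]) x

theorem E_eq (x : Cob Laz 2) (F : Laz →+* B) (a : Fin 3 → InvSeries B) :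
    ev (ch F a) x = E x F (a 0) (a 1) (a 2) := by
  rw [E]
  congr 3
  funext i
  fin_cases i <;> rfl

include h in
theorem E_coc {x : Cob Laz 2} (hx : (3 : Cob Laz 3) ^ N ∣ d 2 x) (F : Laz →+* B)
    (a b c e : InvSeries B) : E x F b c e - E x F a c e + E x F a b e - E x F a b c = 0 := by
  have h1 := ev_zero h hx (ch F ![a, b, c, e])
  simp only [ev_d, ch_res, E_eq, Fin.sum_univ_succ, Fin.sum_univ_zero] at h1
  refine Eq.trans ?_ h1
  change _ = (-1 : ℤ) ^ 0 • E x F b c e + ((-1 : ℤ) ^ 1 • E x F a c e +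
    ((-1 : ℤ) ^ 2 • E x F a b e + ((-1 : ℤ) ^ 3 • E x F a b c + 0)))
  simp only [zsmul_eq_mul]
  push_cast
  ring

/-- the prism operator -/
noncomputable def H (x : Cob Laz 2) (F : Laz →+* B) (a b : InvSeries B) : B :=
  E x F a (a * gam h F) (b * gam h F) - E x F a b (b * gam h F)

theorem E_mul (x : Cob Laz 2) (F : Laz →+* B) {g : InvSeries B} (hg : g ∈ strict B)
    (a b c : InvSeries B) : E x (act g F) a b c = E x F (a * g) (b * g) (c * g) := by
  have h1 := congrArg (fun c => ev c x) (ch_mul F ![a, b, c] g)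
  simp only [lead_eq_one hg, Chain.scale_one, E_eq] at h1
  exact h1.symm

theorem H_res (x : Cob Laz 2) (c : Chain Laz n B) (α : Fin 2 → Fin (n + 1)) :
    H h x (c.res α).pt ((c.res α).g 0) ((c.res α).g 1) = H h x c.pt (c.g (α 0)) (c.g (α 1)) := by
  simp only [H, Chain.res_pt, Chain.res_g, E_mul x c.pt (c.strict (α 0)), mul_assoc, gam_act,
    inv_mul_cancel_left, inv_mul_cancel, mul_one]

theorem map_H (φ : B →+* B') (h' : (3 : B') ^ N = 0) (x : Cob Laz 2) (F : Laz →+* B)
    (a b : InvSeries B) :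
    φ (H h x F a b) = H h' x (φ.comp F) (InvSeries.map φ a) (InvSeries.map φ b) := by
  have e : ∀ a b c, φ (E x F a b c) = E x (φ.comp F) (InvSeries.map φ a) (InvSeries.map φ b)
      (InvSeries.map φ c) := fun a b c => by
    rw [E, ← ev_map, ch_map, E_eq]
    rfl
  simp only [H, map_sub, e, map_mul, map_gam h φ h']

theorem quot (R : Type) [CommRing R] (N : ℕ) : (3 : R ⧸ Ideal.span {(3 : R) ^ N}) ^ N = 0 := by
  rw [← map_ofNat (Ideal.Quotient.mk _), ← map_pow, Ideal.Quotient.eq_zero_iff_mem]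
  exact Ideal.mem_span_singleton_self _

theorem exists_h (N : ℕ) (x : Cob Laz 2) : ∃ y : Cob Laz 1, ∀ (B : Type) [CommRing B]
    (h : (3 : B) ^ N = 0) (c : Chain Laz 1 B), ev c y = H h x c.pt (c.g 0) (c.g 1) := by
  let c₀ := (univ Laz 1).map (Ideal.Quotient.mk (Ideal.span {(3 : Cob Laz 1) ^ N}))
  obtain ⟨y, hy⟩ := Ideal.Quotient.mk_surjective (H (quot _ N) x c₀.pt (c₀.g 0) (c₀.g 1))
  refine ⟨y, fun B _ h c => ?_⟩
  let φ := Ideal.Quotient.lift (Ideal.span {(3 : Cob Laz 1) ^ N}) (ev c) fun a ha =>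
    ev_zero h (Ideal.mem_span_singleton.1 ha) c
  have e : c₀.map φ = c := by
    rw [← univ_map_ev c]
    exact Chain.ext rfl (funext fun i => InvSeries.map_map _ _ _)
  rw [← e, show ev (c₀.map φ) y = φ (Ideal.Quotient.mk _ y) from by rw [e]; rfl, hy, map_H _ φ h]
  rfl

theorem dvd_of {y : Cob Laz n} (hy : ∀ (B : Type) [CommRing B], (3 : B) ^ N = 0 →
    ∀ c : Chain Laz n B, ev c y = 0) : (3 : Cob Laz n) ^ N ∣ y := by
  have h1 := hy _ (quot _ N) ((univ Laz n).map (Ideal.Quotient.mk _))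
  rwa [ev_map, ev_univ, Ideal.Quotient.eq_zero_iff_mem, Ideal.mem_span_singleton] at h1

end Sah

open Sah

/-- (S) -/
theorem sah : SAH := by
  refine ⟨fun k N x hx hd => ?_, fun k N f hf hd => dvd_of fun B _ h c => ?_⟩
  · obtain ⟨y, hy⟩ := exists_h N x
    obtain ⟨r, hr⟩ : (3 : Cob Laz 2) ^ N ∣ (4 ^ k - 1) * x - d 1 y := dvd_of fun B _ h c => by
      have h1 := E_coc h hd c.pt (c.g 0) (c.g 0 * gam h c.pt) (c.g 1 * gam h c.pt)
        (c.g 2 * gam h c.pt)
      have h2 := E_coc h hd c.pt (c.g 0) (c.g 1) (c.g 1 * gam h c.pt) (c.g 2 * gam h c.pt)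
      have h3 := E_coc h hd c.pt (c.g 0) (c.g 1) (c.g 2) (c.g 2 * gam h c.pt)
      have h4 := ev_gam h hx c.pt c.g
      have h5 := E_eq x c.pt c.g
      rw [E_eq, ch_self] at h4
      rw [ch_self] at h5
      simp only [map_sub, map_mul, map_pow, map_ofNat, map_one, ev_d, hy B h, H_res,
        Fin.sum_univ_succ, Fin.sum_univ_zero]
      change _ - ((-1 : ℤ) ^ 0 • H h x c.pt (c.g 1) (c.g 2) + ((-1 : ℤ) ^ 1 •
        H h x c.pt (c.g 0) (c.g 2) + ((-1 : ℤ) ^ 2 • H h x c.pt (c.g 0) (c.g 1) + 0))) = 0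
      simp only [zsmul_eq_mul, H]
      push_cast
      linear_combination h1 - h2 + h3 - h4 - h5
    refine ⟨proj k y, isWt_proj _ _, proj k r, ?_⟩
    have e1 : (4 ^ k - 1) * x = (4 ^ k - 1 : ℤ) • x := by simp
    have e2 : ∀ z : Cob Laz 2, 3 ^ N * z = (3 ^ N : ℤ) • z := fun z => by simp
    have h1 := (map_sub (projHom Laz 2 k) _ _).symm.trans (congrArg (projHom Laz 2 k) hr)
    simp only [projHom_apply] at h1
    rwa [e2, proj_zsmul, ← e2, proj_d, proj_of_isWt (e1 ▸ hx.zsmul _), if_pos rfl] at h1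
  · have h1 := ev_zero h hd (ch c.pt ![1, gam h c.pt])
    have h2 := ev_gam h hf c.pt c.g
    have h3 : c.g = fun _ => 1 := funext fun i => by rw [Fin.fin_one_eq_zero i, c.zero]
    simp only [ev_d, ch_res, Fin.sum_univ_succ, Fin.sum_univ_zero] at h1
    rw [ch_self, h3] at h2
    have h4 := ch_self c
    rw [h3] at h4
    have e : ∀ a : Fin 1 → InvSeries B, a = fun _ => a 0 := fun a =>
      funext fun i => by rw [Fin.fin_one_eq_zero i]
    rw [e fun i => _, e fun i => ![1, gam h c.pt] (Fin.succAbove _ i)] at h1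
    change (-1 : ℤ) ^ 0 • ev (ch c.pt fun _ => gam h c.pt) f +
      ((-1 : ℤ) ^ 1 • ev (ch c.pt fun _ => 1) f + 0) = 0 at h1
    simp only [one_mul] at h2
    simp only [h2, h4, zsmul_eq_mul] at h1
    simp only [map_sub, map_mul, map_pow, map_ofNat, map_one]
    push_cast at h1
    linear_combination h1

end Vale.Agent.P236Z.Det
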