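import Vale.Agent.P236Z.Det.Defs
import Vale.Agent.P251.F.Height

/-!
# P236, block DET: low coefficients of composites, the leading term of `t_1`
-/

namespace Vale.Agent.P236Z.Det

open Vale.Agent.P217 Vale.Agent.P251.F Vale.Agent.P251.I Vale.Agent.P251.F.Cob

section Coeff

open PowerSeries

variable {B : Type*} [CommRing B] {A : PowerSeries B}

theorem coeff_subst_range (hA : constantCoeff A = 0) (f : PowerSeries B) (n : ℕ) :
    coeff n (subst A f : PowerSeries B) =
      ∑ d ∈ Finset.range (n + 1), coeff d f * coeff n (A ^ d) := by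
  rw [coeff_subst' (hasSubst_of_cc hA), finsum_eq_sum_of_support_subset (s := Finset.range (n + 1))]
  · rfl
  · intro d hd
    rw [Finset.coe_range, Set.mem_Iio]
    by_contra h
    refine hd ?_
    have h2 : coeff n (A ^ d) = 0 :=
      X_pow_dvd_iff.1 (pow_dvd_pow_of_dvd (X_dvd_iff.2 hA) d) n (by omega)
    simp only [h2, smul_zero]

theorem coeff2_subst (hA : constantCoeff A = 0) (f : PowerSeries B) :
    coeff 2 (subst A f : PowerSeries B) =
      coeff 1 f * coeff 2 A + coeff 2 f * coeff 1 A ^ 2 := by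
  rw [coeff_subst_range hA]
  simp [Finset.sum_range_succ, pow_succ, coeff_mul, Finset.Nat.antidiagonal_succ, hA, coeff_one]

theorem coeff3_subst (hA : constantCoeff A = 0) (f : PowerSeries B) :
    coeff 3 (subst A f : PowerSeries B) = coeff 1 f * coeff 3 A +
      2 * coeff 2 f * coeff 1 A * coeff 2 A + coeff 3 f * coeff 1 A ^ 3 := by
  rw [coeff_subst_range hA]
  simp [Finset.sum_range_succ, pow_succ, coeff_mul, Finset.Nat.antidiagonal_succ, hA, coeff_one]
  ring

end Coeff

/-- the change of `v_1` under a strict isomorphism -/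
theorem vv_one_smul {B : Type*} [CommRing B] (F : Law B) {f : InvSeries B} (hf : f.c 0 = 1) :
    ∃ q, vv 3 1 (f • F) - vv 3 1 F = 3 * (8 * f.c 2 + f.c 1 * q) := by
  have h := congrArg (PowerSeries.coeff 3) (smul_multSeries f F 3)
  have h1 : PowerSeries.coeff 1 f.val = 1 := hf
  rw [coeff3_subst (constantCoeff_multSeries _ _), coeff3_subst f.cc, coeff_one_multSeries,
    coeff_one_multSeries, h1] at h
  have h2 : PowerSeries.coeff 2 (multSeries (f • F).toFG 3) ∈ Ideal.span {(3 : B)} := by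
    refine (IF_le_iff 3 _ 1 _).2 (fun i hi => ?_) (coeff_multSeries_mem 3 _ 1 2 (by norm_num))
    obtain rfl : i = 0 := by omega
    rw [vF_zero]
    exact Ideal.mem_span_singleton_self _
  obtain ⟨k, hk⟩ := Ideal.mem_span_singleton.1 h2
  refine ⟨2 * PowerSeries.coeff 2 (multSeries F.toFG 3) - 2 * k, ?_⟩
  rw [hk] at h
  push_cast at h
  change PowerSeries.coeff 3 (multSeries (f • F).toFG 3) - PowerSeries.coeff 3 (multSeries F.toFG 3) =
    3 * (8 * PowerSeries.coeff 3 f.val + PowerSeries.coeff 2 f.val * _)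
  linear_combination -h

/-- the leading term of `t_1` -/
theorem t1_eq {t1 : Cob Laz 1} (ht : IsT1 3 t1) :
    ∃ q : Cob Laz 1, t1 = 8 * MvPolynomial.X (0, 1) + MvPolynomial.X (0, 0) * q := by
  set F : Law (Cob Laz 1) := Laz.univ.map (MvPolynomial.C : Laz →+* Cob Laz 1) with hF
  obtain ⟨q, hq⟩ := vv_one_smul F ((univ Laz 1).strict 1)
  refine ⟨q, Cob.eq_of_smul (m := 3) (by norm_num) ?_⟩
  have e0 : map (N := Laz) (Fin.succAbove (0 : Fin 2)) (MvPolynomial.C (Laz.v 3 1)) =
      vv 3 1 ((univ Laz 1).g 1 • F) := by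
    rw [map, ev_C, Laz.map_v]
    congr 1
    exact LawRing.law_act _ _
  have e1 : map (N := Laz) (Fin.succAbove (1 : Fin 2)) (MvPolynomial.C (Laz.v 3 1)) =
      vv 3 1 F := by
    rw [map, ev_C, Laz.map_v]
    congr 1
    have : Laz.univ.map (((univ Laz 1).res (Fin.succAbove (1 : Fin 2))).pt) =
      ((univ Laz 1).g 0) • Laz.univ.map (univ Laz 1).pt := LawRing.law_act _ _
    rw [this, univ_g_zero, one_smul]
    rfl
  have h1 : (univ Laz 1).g 1 = strictMk fun m => MvPolynomial.X (0, m) := univ_g_succ 0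
  have h2 : (3 : ℤ) • t1 = _ := ht
  rw [h2, d_apply, Fin.sum_univ_two, e0, e1]
  rw [h1, c_succ_strictMk, c_succ_strictMk] at hq
  rw [h1, zsmul_eq_mul]
  simpa [sub_eq_add_neg, mul_add] using hq

end Vale.Agent.P236Z.Det
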