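import Vale.Agent.P236Z.Det.HOneA
import Vale.Agent.P236Z.Det.T1Eq
import Vale.Agent.P251.F.T1
import Vale.Agent.P251.F.HondaMain

/-!
# P236, block DET: the first cohomology at height one
-/

namespace Vale.Agent.P236Z.Det

open Vale.Agent.P217 Vale.Agent.P251.F Vale.Agent.P251.I Vale.Agent.P251.F.Cob LawRing InvSeries

namespace HOne

section Pts

variable {B : Type} [CommRing B]

theorem three_L3 : (3 : L3) = 0 := by
  have h : mk3 ((3 : ℕ) : Laz) = 0 :=
    Ideal.Quotient.eq_zero_iff_mem.2 (Ideal.mem_sup_left (Ideal.mem_span_singleton_self _))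
  rwa [map_natCast, Nat.cast_ofNat] at h

theorem pt_vb (x : L3 →+* B) (i : ℕ) : x (vb i) = vv 3 i ((law (N := L3)).map x) := by
  have h : (law (N := L3)).map x = Laz.univ.map (x.comp mk3) := Law.map_map _ _ _
  rw [h, ← Laz.map_v]
  rfl

theorem pt_vv_zero (x : L3 →+* B) : ∀ i < 1, vv 3 i ((law (N := L3)).map x) = 0 := by
  intro i hi
  obtain rfl : i = 0 := by omega
  rw [vv_zero, Nat.cast_ofNat, ← map_ofNat x 3, three_L3, map_zero]

theorem act_vb (x : L3 →+* B) {g : InvSeries B} (hg : g ∈ strict B) :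
    act g x (vb 1) = x (vb 1) := by
  have h := (vv_smul_of_zero 3 1 _ g (pt_vv_zero x)).2
  rw [mem_strict.1 hg, one_pow, mul_one, one_mul] at h
  rw [pt_vb, pt_vb, law_act, h]

theorem map_vb {n m : ℕ} (α : Fin (m + 1) → Fin (n + 1)) :
    Cob.map α (MvPolynomial.C (vb 1) : Cob L3 m) = MvPolynomial.C (vb 1) := by
  rw [Cob.map, ev_C]
  exact act_vb _ ((univ L3 n).strict _)

theorem d_vb_mul {n : ℕ} (e : ℕ) (t : Cob L3 n) :
    d n (MvPolynomial.C (vb 1) ^ e * t) = MvPolynomial.C (vb 1) ^ e * d n t := by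
  rw [d_apply, d_apply, Finset.mul_sum]
  refine Finset.sum_congr rfl fun i _ => ?_
  rw [map_mul, map_pow, map_vb, mul_smul_comm]

theorem isWt_vb {n : ℕ} : IsWt 2 (MvPolynomial.C (vb 1) : Cob L3 n) := by
  have h := Cob.isWt_v (N := L3) (n := n) 3 1
  rw [ofLaz_QN] at h
  exact h

end Pts

section Honda

variable {H : Law (ZMod 3)}

/-- the point of a law over the prime field -/
noncomputable def ptH (H : Law (ZMod 3)) : L3 →+* ZMod 3 :=
  Ideal.Quotient.lift (Laz.IJ 3 1 1) (Laz.lift H) ((Laz.IJ_vanish_iff 3 1 1 _).2 ⟨rfl, by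
    rw [pow_one, eq_bot_iff]
    refine Ideal.span_le.2 ?_
    rintro _ ⟨i, hi, rfl⟩
    obtain rfl : i = 0 := by omega
    rw [vv_zero]
    rfl⟩)

theorem law_ptH : (law (N := L3)).map (ptH H) = H := by
  have h : (law (N := L3)).map (ptH H) = Laz.univ.map (Laz.lift H) := Law.map_map _ _ _
  rw [h, Laz.univ_map_lift]

theorem act_ptH (γ : AutF H.toFG) : act γ.toInv (ptH H) = ptH H := by
  apply epi_QN 3 1 1
  rw [law_act, law_ptH, smul_eq_iff]
  exact γ.isIso

/-- the restriction of a cochain to the automorphism group -/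
noncomputable def phi (H : Law (ZMod 3)) (Y : Cob L3 1) (γ : AutF H.toFG) : ZMod 3 :=
  yh Y (ptH H) γ.toInv

theorem phi_mul {Y : Cob L3 1} {v : ℤ} (hw : IsWt (2 * v) Y) (hd : d 1 Y = 0)
    (γ δ : AutF H.toFG) : phi H Y (γ * δ) = phi H Y δ + phi H Y γ := by
  have h2 : ∀ u : (ZMod 3)ˣ, u ^ 2 = 1 := by decide
  rw [phi, AutF.toInv_mul, yh_mul hw hd, act_ptH, zpow_mul, zpow_ofNat, h2, one_zpow,
    Units.val_one, one_mul]
  rfl

theorem phi_eq_zero (hH : HondaOver 3 1 H.toFG) {Y : Cob L3 1} {v : ℤ} (hw : IsWt (2 * v) Y)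
    (hd : d 1 Y = 0) (h4 : phi H Y (two H.toFG ^ 2) = 0) (γ : AutF H.toFG) : phi H Y γ = 0 := by
  refine eq_zero_of_four hH _ (phi_mul hw hd) ?_ h4 γ
  obtain ⟨n, hn⟩ := yh_lc Y (ptH H)
  exact ⟨n + 1, fun γ δ h => hn _ _ fun i hi => h (i + 1) (Nat.succ_le_succ hi)⟩

theorem phi_t1 (hH : HondaOver 3 1 H.toFG) {t1 : Cob Laz 1} (ht : IsT1 3 t1) (e : ℕ) :
    phi H (MvPolynomial.C (vb 1) ^ e * red 1 t1) (two H.toFG ^ 2) = 8 := by
  obtain ⟨q, rfl⟩ := t1_eq ht
  obtain ⟨h2, h3⟩ := coeff_four hH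
  have hv : ptH H (vb 1) = 1 := by
    rw [pt_vb, law_ptH, vv, hH.mult, PowerSeries.coeff_X_pow_self]
  have hs : (two H.toFG ^ 2).toInv ∈ strict (ZMod 3) := by
    change PowerSeries.coeff 1 (two H.toFG ^ 2).val = 1
    rw [two_sq_val, coeff_one_multSeries]
    rfl
  have hc : ∀ m, ev ((c1 (ptH H) (two H.toFG ^ 2).toInv).pre mk3) (MvPolynomial.X (0, m)) =
      PowerSeries.coeff (m + 2) (multSeries H.toFG 4) := by
    intro m
    rw [ev_X, ← two_sq_val]
    change (Sah.st (two H.toFG ^ 2).toInv).c (m + 1) = _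
    rw [Sah.st_of_mem hs]
    rfl
  rw [phi, yh, map_mul, map_pow, ev_C, red, ev_mapRing, map_add, map_mul, map_mul, hc, hc, h2, h3,
    map_ofNat]
  change ptH H (vb 1) ^ e * _ = _
  rw [hv, one_pow, one_mul, mul_one, zero_mul, add_zero]

end Honda

section Descent

variable {H : Law (ZMod 3)} {B : Type} [CommRing B] {R : Type} [CommRing R] [LawRing R]
  [Algebra (ZMod 3) R] {ι : L3 →+* R} (hι : IsLawHom ι)

include hι in
theorem act_iso (ρ : R →+* B) {g : InvSeries B}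
    (hg : g • (law (N := R)).map ρ = (H.map (algebraMap (ZMod 3) R)).map ρ) :
    act g (ρ.comp ι) = (ρ.comp (algebraMap (ZMod 3) R)).comp (ptH H) := by
  apply epi_QN 3 1 1
  rw [law_act, ← Law.map_map, hι.law, hg, ← Law.map_map, law_ptH, Law.map_map]

include hι in
theorem descent (hH : HondaOver 3 1 H.toFG) (hv : IsUnit (ι (vb 1))) {Y : Cob L3 1} {w : ℤ}
    (hw : IsWt w Y) (hd : d 1 Y = 0) (h0 : ∀ γ, phi H Y γ = 0) :
    ∃ r : R, mapRing ι 1 Y = MvPolynomial.C r - eR R r := by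
  have hh : HasHeight 3 1 (law (N := R)).toFG := by
    refine hasHeight_of_vv 3 1 _ (hι.law ▸ pt_vv_zero ι) ?_
    rwa [← hι.law, ← pt_vb]
  have S : OrbitSetup 3 1 (ZMod 3) H.toFG R (law (N := R)).toFG :=
    ⟨Nat.prime_three, one_ne_zero, by simp, H.comm, hH.mult, (law (N := R)).comm, hh⟩
  obtain ⟨T, _, _, f₀, hT⟩ : ∃ (T : Type) (_ : CommRing T) (_ : Algebra R T) (f₀ : PowerSeries T),
      IsIsoRep (law (N := R)).toFG (H.toFG.map (algebraMap (ZMod 3) R)) T f₀ :=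
    ⟨_, _, _, _, (isoRep _ _).isIsoRep⟩
  let j : R →+* T := algebraMap R T
  let κ : ZMod 3 →+* R := algebraMap (ZMod 3) R
  let f : InvSeries T := ⟨f₀, hT.isIso.1.1, hT.isIso.2⟩
  have hf : f • (law (N := R)).map j = (H.map κ).map j := (smul_eq_iff _ _ _).2 hT.isIso
  obtain ⟨hinj, hinv⟩ := hT.invariants S
  obtain ⟨r, hr⟩ := hinv (yh Y (j.comp ι) f) (fun γ => by
    have e1 : (hT.ract γ⁻¹ : T →+* T).comp (j.comp ι) = j.comp ι := by
      rw [← RingHom.comp_assoc, (hT.ract γ⁻¹).comp_algebraMap]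
    have e2 : InvSeries.map (hT.ract γ⁻¹ : T →+* T) f =
        InvSeries.map (j.comp κ) (γ⁻¹).toInv * f := by
      apply InvSeries.ext
      refine (hT.map_ract γ⁻¹).trans ?_
      rw [InvSeries.mul_val, autR, pmap_pmap]
      rfl
    have e3 := yh_map Y (hT.ract γ⁻¹ : T →+* T) (j.comp ι) f
    rw [e1, e2, yh_mul hw hd, act_iso hι j hf, ← yh_map] at e3
    have e4 : yh Y (ptH H) (γ⁻¹).toInv = 0 := h0 γ⁻¹
    rw [e4, map_zero, mul_zero, add_zero] at e3
    exact e3)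
  have key : ∀ (A : Type) [CommRing A] (ρ : R →+* A) (g : InvSeries A),
      g • (law (N := R)).map ρ = (H.map κ).map ρ → yh Y (ρ.comp ι) g = ρ r := by
    intro A _ ρ g hg
    let _ : Algebra R A := ρ.toAlgebra
    have hg' := (smul_eq_iff g _ _).1 hg
    obtain ⟨ψ, hψ⟩ := hT.exists_lift A g.val hg'
    have e1 : (ψ : T →+* A).comp (j.comp ι) = ρ.comp ι := by
      rw [← RingHom.comp_assoc, ψ.comp_algebraMap]
      rfl
    have e2 : InvSeries.map (ψ : T →+* A) f = g := InvSeries.ext hψ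
    have e3 := yh_map Y (ψ : T →+* A) (j.comp ι) f
    rw [e1, e2, ← hr] at e3
    exact e3.symm.trans (ψ.commutes r)
  let ρ₀ : R →+* Cob T 1 := (MvPolynomial.C : T →+* Cob T 1).comp j
  let s : InvSeries (Cob T 1) := strictMk fun m => MvPolynomial.X (0, m)
  let f' : InvSeries (Cob T 1) := InvSeries.map (MvPolynomial.C : T →+* Cob T 1) f
  have hs : s ∈ strict (Cob T 1) := strictMk_mem _
  have hf' : f' • (law (N := R)).map ρ₀ = (H.map κ).map ρ₀ := by
    rw [← Law.map_map, ← InvSeries.map_smul, hf, Law.map_map]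
  have k1 := key _ ρ₀ f' hf'
  have k2 := key _ (act s ρ₀) (f' * s⁻¹) (by
    rw [law_act, mul_smul, inv_smul_smul, hf', Law.map_map, Law.map_map,
      RingHom.ext_zmod (ρ₀.comp κ) ((act s ρ₀).comp κ)])
  have k3 := yh_mul hw hd (ρ₀.comp ι) (f' * s⁻¹) s
  rw [inv_mul_cancel_right, k1, lead_eq_one hs, one_zpow, Units.val_one, one_mul,
    ← hι.act, k2] at k3
  have k4 : yh Y (ρ₀.comp ι) s = mapRing j 1 (mapRing ι 1 Y) := by
    have e : c1 (ρ₀.comp ι) s = ((univ T 1).pre j).pre ι := by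
      ext1
      · rfl
      · funext i
        fin_cases i
        · rfl
        · exact Sah.st_of_mem hs
    rw [yh, e, ← ev_mapRing, ← ev_mapRing, ev_univ]
  have k5 : act s ρ₀ r = mapRing j 1 (eR R r) := by
    have e1 : eR R r = act ((univ R 1).g 1) (MvPolynomial.C : R →+* Cob R 1) r := by
      rw [eR, RingHom.comp_apply, Cob.map, ev_C]
      rfl
    have e2 : InvSeries.map (mapRing j 1) ((univ R 1).g 1) = s := by
      have e3 : (univ R 1).g 1 = strictMk fun m => MvPolynomial.X (0, m) := univ_g_succ 0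
      rw [e3, map_strictMk]
      simp only [mapRing, MvPolynomial.map_X]
      rfl
    have e4 : (mapRing j 1).comp (MvPolynomial.C : R →+* Cob R 1) = ρ₀ :=
      RingHom.ext fun a => MvPolynomial.map_C j a
    rw [e1, ← RingHom.comp_apply (mapRing j 1), comp_act, e2, e4]
  refine ⟨r, MvPolynomial.map_injective j hinj ?_⟩
  change mapRing j 1 _ = mapRing j 1 _
  rw [map_sub, ← k4, ← k5, eq_sub_iff_add_eq]
  exact k3.symm.trans (MvPolynomial.map_C j r).symm

end Descent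

section Clear

/-- `v_1⁻¹ Laz / 3` -/
abbrev R3 : Type := NN 3 1 1

/-- the localization map -/
noncomputable def ι : L3 →+* R3 := algebraMap L3 R3

/-- the prime field -/
noncomputable def κ : ZMod 3 →+* R3 :=
  ZMod.castHom ((ringChar.spec R3 3).1 (by
    rw [Nat.cast_ofNat, ← map_ofNat ι 3, three_L3, map_zero])) R3

theorem mapRing_eR (z : L3) : mapRing ι 1 (eR L3 z) = eR R3 (ι z) := by
  rw [eR, eR, RingHom.comp_apply, RingHom.comp_apply]
  refine (mapRing_map (isLawHom_algebraMap 3 1 1) _ _).trans ?_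
  exact congrArg _ (MvPolynomial.map_C ι z)

theorem clear {Y : Cob L3 1} {r : R3} (h : mapRing ι 1 Y = MvPolynomial.C r - eR R3 r) :
    ∃ (i : ℕ) (z : L3), MvPolynomial.C (vb 1) ^ i * Y = eR L3 z - MvPolynomial.C z := by
  have hv : eR L3 (vb 1) = MvPolynomial.C (vb 1) := map_vb _
  have hC : ∀ z : L3, mapRing ι 1 (MvPolynomial.C z) = MvPolynomial.C (ι z) :=
    fun z => MvPolynomial.map_C ι z
  obtain ⟨⟨z, ⟨_, a, rfl⟩⟩, hz⟩ := IsLocalization.surj
    (Submonoid.powers (Ideal.Quotient.mk (Laz.IJ 3 1 1) (Laz.v 3 1))) r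
  have hz' : ι z = r * ι (vb 1) ^ a := by
    rw [← map_pow]
    exact hz.symm
  have h1 : mapRing ι 1 (MvPolynomial.C (vb 1) ^ a * Y - (MvPolynomial.C z - eR L3 z)) = 0 := by
    rw [map_sub, map_sub, map_mul, map_pow, h, mapRing_eR, hC, hC, hz', map_mul, map_mul, map_pow,
      map_pow, ← mapRing_eR, hv, hC]
    ring
  obtain ⟨k, hk⟩ := (Cob.mapRing_algebraMap_eq_zero_iff 3 1 1 _).1 h1
  refine ⟨k + a, -(vb 1 ^ k * z), ?_⟩
  rw [map_neg, map_neg, map_mul, map_mul, map_pow, map_pow, hv]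
  change MvPolynomial.C (vb 1) ^ k * _ = 0 at hk
  linear_combination hk

end Clear

end HOne

open HOne in
/-- **(H1)** first cohomology at height one. -/
theorem hone : HONE := by
  intro t1 ht e Y hw hd
  obtain ⟨Γ, -, hc, hH, -⟩ := exists_hondaOver (p := 3) (h := 1) le_rfl (k := ZMod 3) (by simp)
    (RingHom.id _)
  let H : Law (ZMod 3) := ⟨Γ.map (RingHom.id _), inferInstance⟩
  obtain ⟨hw1, hd1, -⟩ := BCocycle 3 (by norm_num) t1 ht
  obtain ⟨c, hc⟩ := ZMod.intCast_surjective (phi H Y (two H.toFG ^ 2) * 8)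
  have hw2 : IsWt (2 * ((e : ℤ) + 1)) (MvPolynomial.C (vb 1) ^ e * red 1 t1) := by
    have h := (isWt_vb.pow e).mul (hw1.mapRing (isLawHom_mk_QN 3 1 1))
    have h2 : (e : ℤ) * 2 + ((3 - 1 : ℕ) : ℤ) = 2 * ((e : ℤ) + 1) := by
      push_cast
      ring
    rw [h2] at h
    exact h
  have hd2 : d 1 (MvPolynomial.C (vb 1) ^ e * red 1 t1) = 0 := by
    have h := mapRing_d (isLawHom_mk_QN 3 1 1) t1
    rw [hd1, map_zero] at h
    rw [d_vb_mul]
    exact mul_eq_zero_of_right _ h.symm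
  have hw3 : IsWt (2 * ((e : ℤ) + 1))
      (Y - (c : Cob L3 1) * (MvPolynomial.C (vb 1) ^ e * red 1 t1)) := by
    rw [← zsmul_eq_mul]
    exact (wt L3 1 _).sub_mem hw (hw2.zsmul c)
  have hd3 : d 1 (Y - (c : Cob L3 1) * (MvPolynomial.C (vb 1) ^ e * red 1 t1)) = 0 := by
    rw [← zsmul_eq_mul, map_sub, map_zsmul, hd, hd2, smul_zero, sub_zero]
  have h4 : phi H (Y - (c : Cob L3 1) * (MvPolynomial.C (vb 1) ^ e * red 1 t1))
      (two H.toFG ^ 2) = 0 := by
    have h := phi_t1 (H := H) hH ht e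
    have h3 : (3 : ZMod 3) = 0 := rfl
    rw [phi, yh] at h hc ⊢
    rw [map_sub, map_mul, map_intCast, h, hc]
    linear_combination (-21 * ev (c1 (ptH H) (two H.toFG ^ 2).toInv) Y) * h3
  let _ : Algebra (ZMod 3) R3 := κ.toAlgebra
  obtain ⟨r, hr⟩ := descent (H := H) (ι := ι) (isLawHom_algebraMap 3 1 1) hH
    (IsLocalization.Away.algebraMap_isUnit (Ideal.Quotient.mk (Laz.IJ 3 1 1) (Laz.v 3 1)))
    hw3 hd3 (phi_eq_zero hH hw3 hd3 h4)
  obtain ⟨i, z, hz⟩ := clear hr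
  exact ⟨i, c, z, hz⟩

end Vale.Agent.P236Z.Det
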