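import Vale.Agent.P236Z.Det.Defs
import Vale.Agent.P251.F.F4Local
import Vale.Agent.P251.F.HondaMain
import Vale.Agent.P251.F.T1
import Mathlib.FieldTheory.Finite.GaloisField
import Mathlib.FieldTheory.IsAlgClosed.AlgebraicClosure

/-!
# P236, block DET: invariants modulo `(3, v_1)`
-/

namespace Vale.Agent.P236Z.Det

open Vale.Agent.P251.F Vale.Agent.P251.F.Cob MvPolynomial LawRing

namespace Land

variable {B : Type} [CommRing B]

theorem mk3_three : mk3 3 = 0 :=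
  Ideal.Quotient.eq_zero_iff_mem.2 (Ideal.mem_sup_left (Ideal.subset_span rfl))

theorem dvd_of_mem {a : Laz} (ha : a ∈ Laz.I 3 2) : vb 1 ∣ mk3 a := by
  refine Ideal.mem_span_singleton.1
    ((Ideal.span_le.2 ?_ : Laz.I 3 2 ≤ (Ideal.span {vb 1}).comap mk3) ha)
  rintro _ ⟨i, hi, rfl⟩
  refine Ideal.mem_span_singleton.2 ?_
  interval_cases i
  · rw [vv_zero, Nat.cast_ofNat, mk3_three]
    exact dvd_zero _
  · exact dvd_rfl

/-- the point of `L3` given by a law in characteristic three -/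
noncomputable def pt (F : Law B) (h : vv 3 0 F = 0) : L3 →+* B :=
  Ideal.Quotient.lift _ (Laz.lift F) ((Laz.IJ_vanish_iff 3 1 1 _).2 ⟨by rwa [vv_zero] at h, by
    rw [pow_one, Laz.univ_map_lift, Ih, Ideal.span_eq_bot]
    rintro _ ⟨i, hi, rfl⟩
    interval_cases i
    exact h⟩)

theorem act_pt (F : Law B) (h : vv 3 0 F = 0) (f : InvSeries B) (a : Laz) :
    act f (pt F h) (mk3 a) = Laz.lift (f • F) a := by
  change Laz.lift (f • Laz.univ.map (Laz.lift F)) a = _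
  rw [Laz.univ_map_lift]

theorem lift_lin {w : ℤ} {a : Laz} (ha : Wt w (mk3 a)) (F : Law B) (h : vv 3 0 F = 0) (u : Bˣ) :
    Laz.lift ((InvSeries.lin u)⁻¹ • F) a = (u ^ w : Bˣ) * Laz.lift F a := by
  have := ha B ⟨pt F h, fun _ => 1, fun _ => one_mem _, rfl⟩ u
  rw [ev_C, ev_C] at this
  exact (act_pt F h _ a).symm.trans this

theorem lift_strict {a : Laz} (ha : (C (vb 1) : Cob L3 1) ∣ eR L3 (mk3 a) - C (mk3 a)) (F : Law B)
    (h : ∀ i < 2, vv 3 i F = 0) {s : InvSeries B} (hs : s ∈ strict B) :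
    Laz.lift (s • F) a = Laz.lift F a := by
  let c : Chain L3 1 B := ⟨pt F (h 0 two_pos), ![1, s],
    Fin.forall_fin_two.2 ⟨one_mem _, hs⟩, rfl⟩
  have k := map_dvd (ev c) ha
  have e : ev c (C (vb 1)) = 0 := (ev_C c _).trans ((Laz.lift_v 3 1 F).trans (h 1 one_lt_two))
  rw [e, zero_dvd_iff, map_sub, sub_eq_zero, eR, RingHom.comp_apply, ev_map_res, ev_C, ev_C] at k
  exact (act_pt F (h 0 two_pos) s a).symm.trans k

theorem lift_smul {w : ℤ} {a : Laz} (hw : Wt w (mk3 a))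
    (ha : (C (vb 1) : Cob L3 1) ∣ eR L3 (mk3 a) - C (mk3 a)) (F : Law B)
    (h : ∀ i < 2, vv 3 i F = 0) (f : InvSeries B) : ∃ u : Bˣ,
      Laz.lift (f • F) a = (u ^ w : Bˣ) * Laz.lift F a ∧ vv 3 2 (f • F) = u ^ 8 * vv 3 2 F := by
  obtain ⟨u, hu⟩ : IsUnit (f.c 0) := f.isUnit
  have hs : InvSeries.lin u⁻¹ * f ∈ strict B := by
    rw [mem_strict, InvSeries.c_zero_mul, InvSeries.c_zero_lin, ← hu, Units.inv_mul]
  obtain ⟨k1, k2⟩ := vv_smul_of_zero 3 2 F (InvSeries.lin u⁻¹ * f) h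
  rw [mem_strict.1 hs, one_pow, mul_one, one_mul] at k2
  have e : f • F = (InvSeries.lin u⁻¹)⁻¹ • (InvSeries.lin u⁻¹ * f) • F := by
    rw [mul_smul, inv_smul_smul]
  refine ⟨u⁻¹, ?_, ?_⟩
  · rw [e, lift_lin hw _ (k1 0 two_pos), lift_strict ha F h hs]
  · rw [e, vv_lin_inv, k2, ← Units.val_pow_eq_pow_val, ← zpow_natCast]
    norm_num

theorem core {k K : Type} [Field k] [Field K] [Finite k] [Algebra k K] (j : ZMod 3 →+* k)
    (hk : Nat.card k = 3 ^ 2) (φ : Laz →+* K) (hφ : ∀ x, φ x = 0 ↔ x ∈ Laz.I 3 2) {w : ℕ} {a : Laz}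
    (hw : Wt w (mk3 a)) (hz : (C (vb 1) : Cob L3 1) ∣ eR L3 (mk3 a) - C (mk3 a)) :
    a ∈ Laz.I 3 2 ∨ ∃ (m : ℕ) (c : ℤ), w = 8 * m ∧ a - c * Laz.v 3 2 ^ m ∈ Laz.I 3 2 := by
  have hF : ∀ i < 2, vv 3 i (Laz.univ.map φ) = 0 := fun i hi =>
    (vv_map 3 i φ _).trans ((hφ _).2 (vv_mem_Ih hi _))
  obtain ⟨Γ, -, hc, hH, -⟩ := exists_hondaOver (p := 3) (h := 2) one_le_two hk j
  let G : Law (ZMod 3) := ⟨Γ, hc⟩
  obtain ⟨c, hc⟩ := ZMod.intCast_surjective (Laz.lift G a)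
  have Ha : Laz.lift (G.map j) a = c := by rw [← Laz.map_lift, ← hc, map_intCast]
  replace hH : HondaOver 3 2 (G.map j).toFG := hH
  generalize G.map j = H at Ha hH
  obtain ⟨g, g0, g1, hg⟩ := hasHeight_of_vv 3 2 _ hF (IsUnit.mk0 _ (by
    rw [vv_map, Ne, hφ]
    exact v_notMem_I 3 le_rfl))
  obtain ⟨B, _, _, hB, f, hf⟩ := exists_ff_iso 3 two_ne_zero hk H hH.mult _ g g0 g1 hg
  have inj : Function.Injective (algebraMap K B) := FaithfulSMul.algebraMap_injective K B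
  obtain ⟨u, u1, u2⟩ := lift_smul hw hz ((Laz.univ.map φ).map (algebraMap K B))
    (fun i hi => by rw [vv_map, hF i hi, map_zero]) f
  have Hv : ∀ i, vv 3 i H = if 3 ^ i = 3 ^ 2 then 1 else 0 := fun i =>
    (congrArg (PowerSeries.coeff (3 ^ i)) hH.mult).trans (PowerSeries.coeff_X_pow _ _)
  rw [hf, ← Laz.map_lift, ← Laz.map_lift, Ha, ← Laz.map_lift, Laz.lift_map_univ, map_intCast,
    map_intCast, zpow_natCast, Units.val_pow_eq_pow_val] at u1
  rw [hf, vv_map, vv_map, Hv, vv_map, vv_map, if_pos rfl, map_one, map_one] at u2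
  by_cases c0 : (c : k) = 0
  · refine .inl ((hφ a).1 (inj ?_))
    rw [map_zero, ← (u.isUnit.pow w).mul_right_eq_zero, ← u1, ← map_intCast (algebraMap K B),
      ← map_intCast (algebraMap k K), c0, map_zero, map_zero]
  obtain ⟨t, ht⟩ := IsCyclic.exists_ofOrder_eq_natCard (α := kˣ)
  have e : (InvSeries.lin t)⁻¹ • H = H :=
    inv_smul_eq_iff.2 ((InvSeries.smul_eq_iff_isHom _ _ _).2 (hH.teich t)).symm
  have e1 := lift_lin hw H (by rw [Hv]; simp) t
  rw [e, Ha, eq_comm, mul_eq_right₀ c0, Units.val_eq_one, zpow_natCast,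
    ← orderOf_dvd_iff_pow_eq_one, ht, Nat.card_units, hk] at e1
  obtain ⟨m, rfl⟩ : 8 ∣ w := e1
  refine .inr ⟨m, c, rfl, (hφ _).1 (inj ?_)⟩
  simp only [map_sub, map_mul, map_pow, map_intCast, map_zero]
  rw [u1, pow_mul, mul_right_comm, ← mul_pow, Laz.v, ← u2, one_pow, one_mul, sub_self]

theorem exists_field : ∃ (K : Type) (_ : Field K) (_ : IsAlgClosed K) (φ : Laz →+* K),
    ∀ x, φ x = 0 ↔ x ∈ Laz.I 3 2 := by
  let D := Laz ⧸ Laz.I 3 2
  let ψ := (algebraMap _ (AlgebraicClosure (FractionRing D))).comp (algebraMap D (FractionRing D))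
  refine ⟨_, _, inferInstance, ψ.comp (Ideal.Quotient.mk _), fun x => ?_⟩
  rw [← Ideal.Quotient.eq_zero_iff_mem]
  exact map_eq_zero_iff ψ ((algebraMap (FractionRing D) _).injective.comp
    (IsFractionRing.injective D (FractionRing D)))

end Land

open Land in
theorem land : LAND := by
  intro w z hw hz
  obtain ⟨a, rfl⟩ : ∃ a, mk3 a = z := Ideal.Quotient.mk_surjective z
  obtain ⟨K, _, _, φ, hφ⟩ := exists_field
  have : CharP K 3 := (CharP.charP_iff_prime_eq_zero Nat.prime_three).2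
    ((vv_zero 3 _).symm.trans ((vv_map 3 0 φ _).trans ((hφ _).2 (vv_mem_Ih two_pos _))))
  let _ := ZMod.algebra K 3
  let _ : Algebra (GaloisField 3 2) K :=
    (IsAlgClosed.lift : GaloisField 3 2 →ₐ[ZMod 3] K).toAlgebra
  refine (core (algebraMap _ _) (GaloisField.card 3 2 two_ne_zero) φ hφ hw hz).imp dvd_of_mem
    fun ⟨m, c, h1, h2⟩ => ⟨m, c, h1, ?_⟩
  simpa only [vb, map_sub, map_mul, map_pow, map_intCast] using dvd_of_mem h2

end Vale.Agent.P236Z.Det
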