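import Vale.Agent.P236Z.Det.T1Eq
import Vale.Agent.P251.F.LazWt
import Vale.Agent.P251.F.HondaMain

/-!
# P236, block DET: normalized generators, the right unit, the evaluation at height two
-/

namespace Vale.Agent.P236Z.Det

open Vale.Agent.P217 Vale.Agent.P251.F Vale.Agent.P251.I Vale.Agent.P251.F.Cob LawRing

namespace Nm

section Law

variable {A B : Type} [CommRing A] [CommRing B]

/-- the coefficient of `x ^ 2` in the series of the doubling -/
noncomputable def e2 (F : Law B) : B := PowerSeries.coeff 2 (multSeries F.toFG 2)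

/-- the normalizing coordinate change -/
noncomputable def nn (F : Law B) : InvSeries B := strictMk fun m => if m = 0 then e2 F else 0

theorem nn_mem (F : Law B) : nn F ∈ strict B := strictMk_mem _

theorem nn_one (F : Law B) : (nn F).c 1 = e2 F := by simp [nn]

theorem e2_map (φ : A →+* B) (F : Law A) : e2 (F.map φ) = φ (e2 F) := by
  rw [e2, e2, Law.map_toFG, ← map_multSeries, PowerSeries.coeff_map]

theorem nn_map (φ : A →+* B) (F : Law A) : InvSeries.map φ (nn F) = nn (F.map φ) := by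
  rw [nn, nn, map_strictMk]
  congr 1
  funext m
  split_ifs
  · exact (e2_map φ F).symm
  · exact map_zero φ

theorem e2_smul (F : Law B) {f : InvSeries B} (hf : f ∈ strict B) :
    e2 (f • F) = e2 F + 2 * f.c 1 := by
  have h := congrArg (PowerSeries.coeff 2) (smul_multSeries f F 2)
  have h1 : PowerSeries.coeff 1 f.val = 1 := hf
  rw [coeff2_subst (constantCoeff_multSeries _ _), coeff2_subst f.cc, coeff_one_multSeries,
    coeff_one_multSeries, h1] at h
  push_cast at h
  change PowerSeries.coeff 2 (multSeries (f • F).toFG 2) =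
    PowerSeries.coeff 2 (multSeries F.toFG 2) + 2 * PowerSeries.coeff 2 f.val
  linear_combination -h

theorem c_conj (u : Bˣ) (g : InvSeries B) (k : ℕ) :
    ((InvSeries.lin u)⁻¹ * g * InvSeries.lin u).c k = (u : B) ^ k * g.c k := by
  have h1 : ((InvSeries.lin u)⁻¹ * g * InvSeries.lin u).val =
      PowerSeries.C ((u⁻¹ : Bˣ) : B) * PowerSeries.subst
        (PowerSeries.C (u : B) * PowerSeries.X : PowerSeries B) g.val := by
    rw [mul_assoc, ← map_inv, InvSeries.mul_val, InvSeries.lin_val,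
      PowerSeries.subst_mul (g * InvSeries.lin u).hs, PowerSeries.subst_X (g * InvSeries.lin u).hs,
      PowerSeries.subst_C, InvSeries.mul_val, InvSeries.lin_val]
    rfl
  have h2 : (PowerSeries.subst (PowerSeries.C (u : B) * PowerSeries.X : PowerSeries B) g.val :
      PowerSeries B) = PowerSeries.rescale (u : B) g.val := by
    rw [PowerSeries.rescale_eq_subst, PowerSeries.smul_eq_C_mul]
  rw [InvSeries.c, h1, h2, PowerSeries.coeff_C_mul, PowerSeries.coeff_rescale, ← mul_assoc,
    pow_succ', ← mul_assoc, Units.inv_mul, one_mul]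
  rfl

theorem nn_lin (u : Bˣ) (F : Law B) :
    nn ((InvSeries.lin u)⁻¹ • F) = (InvSeries.lin u)⁻¹ * nn F * InvSeries.lin u := by
  refine InvSeries.ext_c fun k => ?_
  rw [c_conj]
  rcases k with _ | _ | k
  · simp [nn]
  · rw [zero_add, nn_one, nn_one]
    exact coeff_multSeries_lin_inv_smul u F 2 1
  · simp [nn]

/-- the isomorphism between the normalized laws -/
noncomputable def ft (F : Law B) (f : InvSeries B) : InvSeries B := nn (f • F) * f * (nn F)⁻¹

theorem ft_mem (F : Law B) {f : InvSeries B} (hf : f ∈ strict B) : ft F f ∈ strict B :=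
  mul_mem (mul_mem (nn_mem _) hf) (inv_mem (nn_mem _))

theorem ft_smul (F : Law B) (f : InvSeries B) : ft F f • nn F • F = nn (f • F) • f • F := by
  rw [ft, ← mul_smul, inv_mul_cancel_right, mul_smul]

theorem ft_one (h3 : (3 : B) = 0) (F : Law B) {f : InvSeries B} (hf : f ∈ strict B) :
    (ft F f).c 1 = 0 := by
  have h1 := e2_smul (nn F • F) (ft_mem F hf)
  rw [ft_smul, e2_smul _ (nn_mem _), e2_smul _ (nn_mem F), nn_one, nn_one] at h1
  linear_combination h1 + (e2 F - e2 (f • F) + (ft F f).c 1) * h3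

/-- the change of `v_{h+1}` when the lower `v_i` vanish -/
theorem vform (h : ℕ) (hh : h ≠ 0) (G : Law B) {f : InvSeries B} (hf : f ∈ strict B)
    (h1 : f.c 1 = 0) (hG : ∀ i < h, vv 3 i G = 0) :
    vv 3 (h + 1) (f • G) = vv 3 (h + 1) G + vv 3 h G ^ 3 * f.c 2 - vv 3 h G * f.c 2 ^ 3 ^ h := by
  rcases subsingleton_or_nontrivial B with hB | hB
  · exact Subsingleton.elim _ _
  have hp0 : ((3 : ℕ) : B) = 0 := by
    rw [← vv_zero 3 G]
    exact hG 0 (Nat.pos_of_ne_zero hh)
  have hchar : CharP B 3 := (CharP.charP_iff_prime_eq_zero Nat.prime_three).2 hp0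
  have hq : 3 ^ h ≠ 0 := pow_ne_zero h (by norm_num)
  obtain ⟨k1, k2⟩ := vv_smul_of_zero 3 h G f hG
  rw [mem_strict.1 hf, one_pow, mul_one, one_mul] at k2
  obtain ⟨P, hP, hP'⟩ := exists_height' 3 (isHom_multSeries G.toFG 3) h hG
  obtain ⟨Q, hQ, hQ'⟩ := exists_height' 3 (isHom_multSeries (f • G).toFG 3) h k1
  have hX : PowerSeries.HasSubst (PowerSeries.X ^ (3 ^ h) : PowerSeries B) :=
    PowerSeries.HasSubst.X_pow hq
  have hc : ∀ (W : PowerSeries B) (j : ℕ), PowerSeries.coeff (3 ^ h * j)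
      (PowerSeries.subst (PowerSeries.X ^ (3 ^ h) : PowerSeries B) W : PowerSeries B) =
      PowerSeries.coeff j W := fun W j => by
    rw [PowerSeries.coeff_subst_X_pow hq, if_pos (dvd_mul_right _ _),
      Nat.mul_div_cancel_left _ (Nat.pos_of_ne_zero hq)]
    rfl
  set f' := InvSeries.map (iterateFrobenius B 3 h) f with hf'
  have hpow : f.val ^ 3 ^ h =
      PowerSeries.subst (PowerSeries.X ^ (3 ^ h) : PowerSeries B) f'.val := by
    have h2 := MvPowerSeries.map_iterateFrobenius_expand 3 (by norm_num)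
      (f.val : MvPowerSeries Unit B) h
    rw [← PowerSeries.expand_apply _ hq, hf', InvSeries.map_val, ← PowerSeries.map_expand]
    exact h2.symm
  have h2 := smul_multSeries f G 3
  rw [hP, hQ, ← PowerSeries.subst_comp_subst_apply (hasSubst_of_cc hP'.1) hX,
    PowerSeries.subst_comp_subst_apply hX f.hs, PowerSeries.subst_pow f.hs,
    PowerSeries.subst_X f.hs, hpow, ← PowerSeries.subst_comp_subst_apply f'.hs hX] at h2
  have h3 := congrArg (PowerSeries.coeff (3 ^ h * 3)) h2
  have a1 : PowerSeries.coeff 1 f.val = 1 := hf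
  have a2 : PowerSeries.coeff 2 f.val = 0 := h1
  rw [hc, hc, coeff3_subst hP'.1, coeff3_subst f'.cc, hf', InvSeries.map_val,
    PowerSeries.coeff_map, PowerSeries.coeff_map, PowerSeries.coeff_map, a1, a2, map_one,
    map_zero, iterateFrobenius_def] at h3
  have b1 : vv 3 h G = PowerSeries.coeff 1 P := by rw [vv, hP, ← hc P 1, mul_one]
  have b2 : vv 3 (h + 1) G = PowerSeries.coeff 3 P := by rw [vv, hP, ← hc P 3, pow_succ]
  have b3 : vv 3 h (f • G) = PowerSeries.coeff 1 Q := by rw [vv, hQ, ← hc Q 1, mul_one]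
  have b4 : vv 3 (h + 1) (f • G) = PowerSeries.coeff 3 Q := by rw [vv, hQ, ← hc Q 3, pow_succ]
  rw [← b1, ← b2, ← b3, ← b4, k2] at h3
  change _ = _ + _ * PowerSeries.coeff 3 f.val - _ * PowerSeries.coeff 3 f.val ^ _
  linear_combination -h3

end Law

section Ch

variable {N B B' : Type} [CommRing N] [CommRing B] [CommRing B']

/-- a chain of length one -/
noncomputable def ch (x : N →+* B) (f : InvSeries B) (hf : f ∈ strict B) : Chain N 1 B where
  pt := x
  g := ![1, f]
  strict i := by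
    fin_cases i
    · exact one_mem _
    · exact hf
  zero := rfl

/-- a chain of length two -/
noncomputable def ch2 (x : N →+* B) (f g : InvSeries B) (hf : f ∈ strict B) (hg : g ∈ strict B) :
    Chain N 2 B where
  pt := x
  g := ![1, f, g * f]
  strict i := by
    fin_cases i
    · exact one_mem _
    · exact hf
    · exact mul_mem hg hf
  zero := rfl

theorem ch_ext {c c' : Chain N 1 B} (h : c.pt = c'.pt) (h' : c.g 1 = c'.g 1) : c = c' := by
  refine Chain.ext h (funext fun i => ?_)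
  fin_cases i
  · exact c.zero.trans c'.zero.symm
  · exact h'

variable [LawRing N]

theorem coc {τ : Cob N 1} (hτ : d 1 τ = 0) (x : N →+* B) {f g : InvSeries B} (hf : f ∈ strict B)
    (hg : g ∈ strict B) :
    ev (ch x (g * f) (mul_mem hg hf)) τ = ev (ch x f hf) τ + ev (ch (act f x) g hg) τ := by
  have h := ev_d (ch2 x f g hf hg) τ
  have h0 : (ch2 x f g hf hg).res (Fin.succAbove (0 : Fin 3)) = ch (act f x) g hg :=
    ch_ext rfl (mul_inv_cancel_right g f)
  have h1 : (ch2 x f g hf hg).res (Fin.succAbove (1 : Fin 3)) = ch x (g * f) (mul_mem hg hf) :=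
    ch_ext (act_one x) (by
      change g * f * 1⁻¹ = g * f
      rw [inv_one, mul_one])
  have h2 : (ch2 x f g hf hg).res (Fin.succAbove (2 : Fin 3)) = ch x f hf :=
    ch_ext (act_one x) (by
      change f * 1⁻¹ = f
      rw [inv_one, mul_one])
  rw [hτ, map_zero, Fin.sum_univ_three, h0, h1, h2] at h
  simp only [Fin.val_zero, pow_zero, one_smul, Fin.val_one, pow_one, neg_smul, Fin.val_two,
    even_two, Even.neg_pow, one_pow] at h
  linear_combination h

theorem ev_eR (c : Chain N 1 B) (z : N) : ev c (eR N z) = act (c.g 1) c.pt z := by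
  rw [eR, RingHom.comp_apply, ev_map_res, ev_C]
  rfl

theorem eR_eq : eR N = act ((univ N 1).g 1) MvPolynomial.C :=
  RingHom.ext fun z => by rw [← ev_univ (eR N z), ev_eR, univ_pt]

theorem map_w (x : N →+* B) (i : ℕ) :
    x (vv 3 i (nn (law (N := N)) • law (N := N))) = vv 3 i (nn (law.map x) • law.map x) := by
  rw [← vv_map, InvSeries.map_smul, nn_map]

theorem map_g (x : N →+* B) (τ : Cob N 1) :
    x (ev (ch (RingHom.id N) (nn law) (nn_mem _)) τ) = ev (ch x (nn (law.map x)) (nn_mem _)) τ := by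
  rw [← ev_map]
  congr 2
  exact ch_ext rfl (nn_map x law)

theorem wt_w (i : ℕ) : Wt ((3 ^ i : ℤ) - 1) (vv 3 i (nn (law (N := N)) • law (N := N))) := by
  intro B _ c u
  rw [ev_C, ev_C, map_w, map_w]
  have h : law.map (c.scale u).pt = (InvSeries.lin u)⁻¹ • law.map c.pt := law_act _ _
  rw [h, nn_lin, ← mul_smul, mul_inv_cancel_right, mul_smul]
  exact vv_lin_inv 3 i u _

theorem wt_g {w : ℤ} {τ : Cob N 1} (hτ : IsWt w τ) :
    Wt w (ev (ch (RingHom.id N) (nn law) (nn_mem _)) τ) := by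
  intro B _ c u
  rw [ev_C, ev_C, map_g, map_g, ← hτ]
  congr 2
  refine ch_ext rfl ?_
  have h : law.map (c.scale u).pt = (InvSeries.lin u)⁻¹ • law.map c.pt := law_act _ _
  rw [h]
  exact nn_lin u _

end Ch

theorem three : (3 : L3) = 0 := by
  have h : ((3 : ℕ) : Laz) ∈ Laz.IJ 3 1 1 := Ideal.mem_sup_left (Ideal.mem_span_singleton_self _)
  have h2 := Ideal.Quotient.eq_zero_iff_mem.2 h
  rwa [map_natCast] at h2

theorem three' {B : Type} [CommRing B] (x : L3 →+* B) : (3 : B) = 0 := by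
  rw [← map_ofNat x 3, three, map_zero]

theorem map_vb {B : Type} [CommRing B] (x : L3 →+* B) (i : ℕ) : x (vb i) = vv 3 i (law.map x) := by
  rw [vv_map]
  exact congrArg x (Laz.map_v 3 i mk3)

theorem ev_t1 {t1 : Cob Laz 1} (ht : IsT1 3 t1) {B : Type} [CommRing B] (c : Chain L3 1 B)
    (h : (c.g 1).c 1 = 0) : ev c (red 1 t1) = -(c.g 1).c 2 := by
  obtain ⟨q, rfl⟩ := t1_eq ht
  rw [red, ev_mapRing, map_add, map_mul, map_mul, ev_X, ev_X, map_ofNat]
  change 8 * (c.g 1).c 2 + (c.g 1).c 1 * _ = _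
  rw [h]
  linear_combination 3 * (c.g 1).c 2 * three' c.pt

theorem Ih_two {B : Type} [CommRing B] (x : L3 →+* B) :
    Ih 3 2 (law.map x) ≤ Ideal.span {x (vb 1)} := by
  refine Ideal.span_le.2 ?_
  rintro _ ⟨i, hi, rfl⟩
  interval_cases i
  · rw [vv_zero, Nat.cast_ofNat, three' x]
    exact Ideal.zero_mem _
  · rw [map_vb]
    exact Ideal.mem_span_singleton_self _

end Nm

open Nm MvPolynomial

theorem norm : NORM := by
  intro t1 ht
  obtain ⟨hw, hd, -⟩ := BCocycle 3 (by norm_num) t1 ht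
  have hl : IsLawHom mk3 := isLawHom_mk_QN 3 1 1
  have hw' : IsWt 2 (red 1 t1) := hw.mapRing hl
  have hd' : d 1 (red 1 t1) = 0 := by rw [red, ← mapRing_d hl, hd, map_zero]
  have hf : (univ L3 1).g 1 ∈ strict _ := (univ L3 1).strict 1
  set f := (univ L3 1).g 1 with hfe
  set F : Law (Cob L3 1) := law.map (C : L3 →+* Cob L3 1) with hF
  have hR : law.map (eR L3) = f • F := by rw [eR_eq, law_act]
  have h3 := three' (C : L3 →+* Cob L3 1)
  have h1 := ft_one h3 F hf
  have hv : vv 3 1 (nn F • F) = C (vb 1) := by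
    have := (vv_smul_of_zero 3 1 F (nn F) fun i hi => by
      obtain rfl : i = 0 := by omega
      rw [vv_zero, Nat.cast_ofNat, h3]).2
    rwa [mem_strict.1 (nn_mem F), one_pow, mul_one, one_mul, ← map_vb] at this
  refine ⟨vv 3 2 (nn (law (N := L3)) • law (N := L3)), vv 3 3 (nn (law (N := L3)) • law (N := L3)),
    -ev (ch (RingHom.id L3) (nn law) (nn_mem _)) (red 1 t1), (ft F f).c 2, wt_w 2, wt_w 3,
    ?_, ?_, ?_, ?_, ?_⟩
  · have := (wt_g hw').neg
    rwa [← map_neg] at this
  · have h := Ih_two (RingHom.id L3) (vv_smul_sub_mem 3 2 _ (nn law))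
    rw [mem_strict.1 (nn_mem _), one_pow, mul_one, one_mul, ← map_vb, Law.map_id] at h
    exact Ideal.mem_span_singleton.1 h
  · have a1 := coc hd' C hf (nn_mem (f • F))
    have a2 := coc hd' C (nn_mem F) (ft_mem F hf)
    have a3 : ch (C : L3 →+* Cob L3 1) (ft F f * nn F) (mul_mem (ft_mem F hf) (nn_mem F)) =
        ch C (nn (f • F) * f) (mul_mem (nn_mem _) hf) := ch_ext rfl (inv_mul_cancel_right _ _)
    have a4 : ch (C : L3 →+* Cob L3 1) f hf = univ L3 1 := ch_ext rfl rfl
    rw [a3, a1, a4, ev_univ, ev_t1 ht (ch (act (nn F) C) (ft F f) _) h1, ← eR_eq] at a2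
    rw [map_neg, map_neg, map_g, map_g]
    simp only [hR]
    change _ = _ + -(ft F f).c 2 at a2
    linear_combination a2
  · rw [map_w, map_w, hR, ← ft_smul, ← hv]
    exact vform 1 one_ne_zero _ (ft_mem F hf) h1 fun i hi => by
      obtain rfl : i = 0 := by omega
      rw [vv_zero, Nat.cast_ofNat, h3]
  · rw [map_w, map_w, map_w, hR, ← ft_smul, ← Ideal.mem_span_singleton,
      ← Ideal.Quotient.eq_zero_iff_mem]
    set φ := Ideal.Quotient.mk (Ideal.span {(C (vb 1) : Cob L3 1)})
    have := vform 2 two_ne_zero ((nn F • F).map φ) (map_mem_strict φ (ft_mem F hf))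
      (by rw [InvSeries.c_map, h1, map_zero]) fun i hi => by
        rw [vv_map, Ideal.Quotient.eq_zero_iff_mem]
        exact Ih_two C (vv_smul_mem 3 2 F (nn F) i hi)
    rw [← InvSeries.map_smul, vv_map, vv_map, vv_map, InvSeries.c_map] at this
    simp only [map_sub, map_add, map_mul, map_pow]
    rw [sub_eq_zero]
    exact this

theorem evp : EVP := by
  intro t1 ht
  obtain ⟨Γ, hΓ⟩ := exists_isHonda (p := 3) (n := 2) (by norm_num)
  have hc := hΓ.isCommL (by norm_num)
  let H : Law (ZMod 3) := ⟨Γ, hc⟩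
  have hv : ∀ i, vv 3 i H = if 3 ^ i = 3 ^ 2 then 1 else 0 := fun i => by
    rw [vv, ← PowerSeries.coeff_X_pow, ← hΓ.multSeries_eqL (by norm_num)]
  let x : L3 →+* ZMod 3 := Ideal.Quotient.lift _ (Laz.lift H) ((Laz.IJ_vanish_iff 3 1 1 _).2
    ⟨rfl, by
      rw [pow_one, Laz.univ_map_lift, eq_bot_iff]
      refine Ideal.span_le.2 ?_
      rintro _ ⟨i, hi, rfl⟩
      obtain rfl : i = 0 := by omega
      rw [hv]
      simp⟩)
  have hx : law.map x = H := by
    change (Laz.univ.map _).map x = H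
    rw [Law.map_map]
    exact Laz.univ_map_lift H
  have h3 : IsHom Γ Γ (PowerSeries.X ^ 3) := by
    have := isHom_X_pow Γ (RingHom.id _) 1
    have e : Γ.map (RingHom.id _) = Γ := congrArg Law.toFG (Law.map_id H)
    rwa [e, pow_one] at this
  have hσ := (isHom_X (F := Γ)).addL h3
  obtain ⟨K, hK⟩ := exists_FG_decomp Γ
  have hS : MvPowerSeries.HasSubst ![(PowerSeries.X : PowerSeries (ZMod 3)), PowerSeries.X ^ 3] :=
    hasSubst_pair PowerSeries.HasSubst.X' (PowerSeries.HasSubst.X_pow (by norm_num))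
  obtain ⟨R, hR⟩ : ∃ R : PowerSeries (ZMod 3), (MvPowerSeries.subst
      ![(PowerSeries.X : PowerSeries (ZMod 3)), PowerSeries.X ^ 3] Γ.toPowerSeries :
      PowerSeries (ZMod 3)) = PowerSeries.X + PowerSeries.X ^ 3 + PowerSeries.X ^ 4 * R := by
    refine ⟨MvPowerSeries.subst ![PowerSeries.X, PowerSeries.X ^ 3] K, ?_⟩
    rw [hK, MvPowerSeries.subst_add hS, MvPowerSeries.subst_add hS, MvPowerSeries.subst_mul hS,
      MvPowerSeries.subst_mul hS, MvPowerSeries.subst_X hS, MvPowerSeries.subst_X hS,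
      pow_succ' _ 3]
    rfl
  rw [hR] at hσ
  have hco : ∀ j < 4, PowerSeries.coeff j (PowerSeries.X + PowerSeries.X ^ 3 +
      PowerSeries.X ^ 4 * R) = (if j = 1 then 1 else 0) + if j = 3 then 1 else 0 := fun j hj => by
    rw [map_add, map_add, PowerSeries.coeff_X, PowerSeries.coeff_X_pow,
      PowerSeries.X_pow_dvd_iff.1 (dvd_mul_right _ R) j hj, add_zero]
  let s : InvSeries (ZMod 3) := ⟨_, hσ.1, by rw [hco 1 (by norm_num)]; simp⟩
  have hs : s ∈ strict _ := (hco 1 (by norm_num)).trans (by simp)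
  have hact : act s x = x := epi_QN 3 1 1 _ _ _ (by
    rw [law_act, hx]
    exact (InvSeries.smul_eq_iff_isHom s H H).2 hσ)
  refine ⟨ev (ch x s hs), ?_, ?_, ?_, fun z => ?_⟩
  · rw [ev_C]
    change x _ = _
    rw [map_vb, hx, hv]
    simp
  · rw [ev_C]
    change x _ = _
    rw [map_vb, hx, hv]
    simp
  · rw [ev_t1 ht (ch x s hs) ((hco 2 (by norm_num)).trans (by simp))]
    have : s.c 2 = 1 := (hco 3 (by norm_num)).trans (by simp)
    change -s.c 2 ≠ 0
    rw [this]
    decide
  · rw [ev_eR, ev_C]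
    exact congrArg (fun y : L3 →+* ZMod 3 => y z) hact

end Vale.Agent.P236Z.Det
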