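import Vale.Agent.P236Z.Det.List
import Vale.Agent.P236Z.Det.Sah
import Vale.Agent.P236Z.Det.Land
import Vale.Agent.P236Z.Det.HOne
import Vale.Agent.P236Z.Det.Norm

/-!
# P236, block DET: the algebra of the detection theorem, unconditionally
-/

namespace Vale.Agent.P236Z.Det

theorem list (j : ℕ) : LIST j := list_of sah land hone norm evp j

theorem low (j : ℕ) : LOW j := low_of sah j

end Vale.Agent.P236Z.Det
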