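import Mathlib.Tactic.Ring
import Mathlib.Tactic.Linarith
import Mathlib.Tactic.Positivity
import Mathlib.Data.Nat.Prime.Basic
import Mathlib.Data.Nat.Factorization.Basic

/-!
# P236, block DET: arithmetic of the exponents
-/

namespace Vale.Agent.P236Z.Det

/-- `a` is the exponent attached to `m`: `1` if `3 ∤ m`, `4 * 3 ^ i - 1` if `3 ^ (i + 1)` exactly
divides `m` -/
def IsA (m a : ℕ) : Prop :=
  (¬ 3 ∣ m ∧ a = 1) ∨ ∃ i s, ¬ 3 ∣ s ∧ m = s * 3 ^ (i + 1) ∧ a + 1 = 4 * 3 ^ i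

theorem exists_isA {m : ℕ} (hm : m ≠ 0) : ∃ a, IsA m a := by
  obtain ⟨e, s, hs, rfl⟩ := Nat.exists_eq_pow_mul_and_not_dvd hm 3 (by norm_num)
  rcases e with _ | i
  · exact ⟨1, Or.inl ⟨by simpa using hs, rfl⟩⟩
  · have : 0 < 3 ^ i := by positivity
    exact ⟨4 * 3 ^ i - 1, Or.inr ⟨i, s, hs, by ring, by omega⟩⟩

theorem IsA.pos {m a : ℕ} (h : IsA m a) : 1 ≤ a := by
  rcases h with ⟨-, rfl⟩ | ⟨i, s, -, -, h⟩
  · rfl
  · have : 0 < 3 ^ i := by positivity
    omega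

theorem IsA.le {m a : ℕ} (h : IsA m a) : a ≤ 2 * m := by
  rcases h with ⟨h, rfl⟩ | ⟨i, s, hs, rfl, h⟩
  · omega
  · have h1 : 1 ≤ s := by omega
    have : 1 * 3 ^ (i + 1) ≤ s * 3 ^ (i + 1) := Nat.mul_le_mul_right _ h1
    rw [pow_succ] at this ⊢
    omega

theorem IsA.inj {m a m' a' : ℕ} (h : IsA m a) (h' : IsA m' a') (hlt : a' < a) :
    4 * m + a' ≠ 4 * m' + a := by
  intro e
  rcases h with ⟨-, rfl⟩ | ⟨i, s, hs, rfl, h⟩
  · have := h'.pos
    omega
  · rcases h' with ⟨-, rfl⟩ | ⟨k, s', hs', rfl, h'⟩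
    · omega
    · have hki : k < i := by
        by_contra hc
        have : 3 ^ i ≤ 3 ^ k := Nat.pow_le_pow_right (by norm_num) (by omega)
        omega
      obtain ⟨l, rfl⟩ := Nat.exists_eq_add_of_lt hki
      have hp : 0 < 3 ^ k := by positivity
      have e1 : 3 ^ k * (9 * (s * 3 ^ l) + 1) = 3 ^ k * (3 * s' + 3 * 3 ^ l) := by
        have e2 : s * 3 ^ (k + l + 1 + 1) = 3 ^ k * (9 * (s * 3 ^ l)) := by ring
        have e3 : s' * 3 ^ (k + 1) = 3 ^ k * (3 * s') := by ring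
        have e4 : 3 ^ (k + l + 1) = 3 ^ k * (3 * 3 ^ l) := by ring
        rw [e2, e3] at e
        rw [e4] at h
        rw [mul_add, mul_add]
        omega
      have := Nat.eq_of_mul_eq_mul_left hp e1
      omega

theorem IsA.shift {m a N : ℕ} (h : IsA m a) (hN : m < 3 ^ N) : IsA (m + 3 ^ N) a := by
  rcases h with ⟨h, rfl⟩ | ⟨i, s, hs, rfl, h⟩
  · refine Or.inl ⟨?_, rfl⟩
    rcases N with _ | N
    · omega
    · rw [pow_succ]; omega
  · have h1 : 1 ≤ s := by omega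
    have h2 : 1 * 3 ^ (i + 1) ≤ s * 3 ^ (i + 1) := Nat.mul_le_mul_right _ h1
    have h3 : i + 1 < N := by
      by_contra hc
      have : 3 ^ N ≤ 3 ^ (i + 1) := Nat.pow_le_pow_right (by norm_num) (by omega)
      omega
    obtain ⟨l, rfl⟩ := Nat.exists_eq_add_of_lt h3
    refine Or.inr ⟨i, s + 3 * 3 ^ l, by omega, by ring, h⟩

theorem arith1 {j m a I : ℕ} (h : IsA m a) (hm : 4 * m = 3 ^ (j + 1) + I) (h0 : 0 < I)
    (hI : I ≤ a) : ∃ n s, n ≤ j ∧ I = 3 ^ n ∧ m = s * 3 ^ n ∧ ¬ 3 ∣ s := by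
  rcases h with ⟨h, rfl⟩ | ⟨i, s, hs, rfl, h⟩
  · exact ⟨0, m, by omega, by omega, by simp, h⟩
  · have hp : 0 < 3 ^ i := by positivity
    have h1 : 1 ≤ s := by omega
    have h2 : 1 * 3 ^ (i + 1) ≤ s * 3 ^ (i + 1) := Nat.mul_le_mul_right _ h1
    by_cases hij : i ≤ j
    · obtain ⟨l, rfl⟩ := Nat.exists_eq_add_of_le hij
      have h3 : 3 ^ (i + 1) ∣ I := by
        have h4 : 3 ^ (i + 1) ∣ 3 ^ (i + l + 1) := pow_dvd_pow _ (by omega)
        refine (Nat.dvd_add_right h4).1 ?_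
        rw [← hm]
        exact Dvd.intro_left (4 * s) (by ring)
      obtain ⟨k, rfl⟩ := h3
      have hk : k = 1 := by
        rcases k with _ | _ | k
        · omega
        · rfl
        · exfalso
          have : 3 ^ (i + 1) * 2 ≤ 3 ^ (i + 1) * (k + 1 + 1) := Nat.mul_le_mul_left _ (by omega)
          rw [pow_succ] at this hI
          omega
      subst hk
      refine ⟨i + 1, s, ?_, by ring, rfl, hs⟩
      rcases l with _ | l
      · exfalso
        have e1 : 3 ^ (i + 1) * (4 * s) = 3 ^ (i + 1) * 2 := by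
          rw [Nat.add_zero] at hm
          linarith
        have := Nat.eq_of_mul_eq_mul_left (by positivity) e1
        omega
      · omega
    · exfalso
      have h3 : 3 ^ (j + 1) ≤ 3 ^ i := Nat.pow_le_pow_right (by norm_num) (by omega)
      rw [pow_succ 3 i] at h2 hm
      omega

/-- the pole orders -/
def rho : ℕ → ℕ
  | 0 => 2
  | 1 => 2
  | n + 2 => 5 * 3 ^ n + 1

theorem rho_lt {T n n' : ℕ} (h : 4 ∣ T + 3 ^ n) (h' : 4 ∣ T + 3 ^ n') (hlt : n' < n) :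
    rho n' < rho n := by
  rcases n with _ | _ | n
  · omega
  · obtain rfl : n' = 0 := by omega
    omega
  · have hp : 0 < 3 ^ n := by positivity
    rcases n' with _ | _ | n'
    · simp only [rho]; omega
    · simp only [rho]; omega
    · have : 3 ^ n' < 3 ^ n := Nat.pow_lt_pow_right (by norm_num) (by omega)
      simp only [rho]; omega

theorem rho_pos (n : ℕ) : 1 ≤ rho n := by
  rcases n with _ | _ | n <;> simp only [rho] <;> omega

theorem arith2 {j n N m a : ℕ} (hn : n ≤ j) (hN : n < N) (h4 : 4 ∣ 3 ^ (j + 1) + 3 ^ n)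
    (h : IsA m a) : 3 ^ (j + 1) + 4 * 3 ^ N + rho n + a ≠ 4 * m := by
  intro e
  obtain ⟨A, rfl⟩ := Nat.exists_eq_add_of_le hn
  obtain ⟨B, rfl⟩ := Nat.exists_eq_add_of_lt hN
  rcases n with _ | _ | n
  · have e1 : 3 ^ (0 + A + 1) = 3 * 3 ^ A := by ring
    have e2 : 3 ^ (0 + B + 1) = 3 * 3 ^ B := by ring
    rw [e1, e2] at e
    rw [e1, pow_zero] at h4
    simp only [rho] at e
    rcases h with ⟨h, rfl⟩ | ⟨i, s, hs, rfl, h⟩
    · omega
    · rcases i with _ | i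
      · rw [pow_zero] at h
        rw [Nat.zero_add, pow_one] at e
        omega
      · have e3 : s * 3 ^ (i + 1 + 1) = 9 * (s * 3 ^ i) := by ring
        rw [e3] at e
        rw [pow_succ] at h
        omega
  · have e1 : 3 ^ (0 + 1 + A + 1) = 9 * 3 ^ A := by ring
    have e2 : 3 ^ (0 + 1 + B + 1) = 9 * 3 ^ B := by ring
    rw [e1, e2] at e
    rw [e1] at h4
    simp only [rho] at e
    rcases h with ⟨h, rfl⟩ | ⟨i, s, hs, rfl, h⟩
    · omega
    · omega
  · have e1 : 3 ^ (n + 1 + 1 + A + 1) = 3 ^ n * (27 * 3 ^ A) := by ring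
    have e2 : 3 ^ (n + 1 + 1 + B + 1) = 3 ^ n * (27 * 3 ^ B) := by ring
    have e3 : 3 ^ (n + 1 + 1) = 9 * 3 ^ n := by ring
    rw [e3] at h4
    simp only [rho] at e
    rcases h with ⟨h, rfl⟩ | ⟨i, s, hs, rfl, h⟩
    · omega
    · rw [e1, e2] at e
      rcases lt_trichotomy i n with hi | rfl | hi
      · obtain ⟨l, rfl⟩ := Nat.exists_eq_add_of_lt hi
        have e4 : 3 ^ i * (3 * (3 ^ l * (27 * 3 ^ A + 4 * (27 * 3 ^ B) + 5)) + 4) =
            3 ^ i * (12 * s) := by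
          have e5 : 3 ^ (i + l + 1) = 3 ^ i * (3 * 3 ^ l) := by ring
          have e6 : s * 3 ^ (i + 1) = 3 ^ i * (3 * s) := by ring
          rw [e5, e6] at e
          nlinarith
        have := Nat.eq_of_mul_eq_mul_left (by positivity) e4
        omega
      · have e4 : 3 ^ i * (27 * 3 ^ A + 4 * (27 * 3 ^ B) + 9) = 3 ^ i * (12 * s) := by
          have e6 : s * 3 ^ (i + 1) = 3 ^ i * (3 * s) := by ring
          rw [e6] at e
          nlinarith
        have := Nat.eq_of_mul_eq_mul_left (by positivity) e4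
        omega
      · obtain ⟨l, rfl⟩ := Nat.exists_eq_add_of_lt hi
        have e4 : 3 ^ n * (27 * 3 ^ A + 4 * (27 * 3 ^ B) + 5 + 12 * 3 ^ l) =
            3 ^ n * (36 * (s * 3 ^ l)) := by
          have e5 : 3 ^ (n + l + 1) = 3 ^ n * (3 * 3 ^ l) := by ring
          have e6 : s * 3 ^ (n + l + 1 + 1) = 3 ^ n * (9 * (s * 3 ^ l)) := by ring
          rw [e6] at e
          rw [e5] at h
          nlinarith
        have := Nat.eq_of_mul_eq_mul_left (by positivity) e4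
        omega

theorem four_pow (k : ℕ) : ∃ q : ℤ, (4 : ℤ) ^ (2 * 3 ^ k) - 1 = 3 ^ (k + 1) * (3 * q + 2) := by
  induction k with
  | zero => exact ⟨1, by norm_num⟩
  | succ k ih =>
    obtain ⟨q, hq⟩ := ih
    refine ⟨q + 3 ^ k * (3 * q + 2) ^ 2 + 3 ^ (2 * k) * (3 * q + 2) ^ 3, ?_⟩
    rw [show 2 * 3 ^ (k + 1) = 2 * 3 ^ k * 3 by ring, pow_mul,
      show (4 : ℤ) ^ (2 * 3 ^ k) = 1 + 3 ^ (k + 1) * (3 * q + 2) by rw [← hq]; ring]
    ring

end Vale.Agent.P236Z.Det
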