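import Vale.Agent.P236Z.Det.Defs

/-!
# P236, block DET: basic lemmas on `eR`, weights, reduction modulo `3`
-/

namespace Vale.Agent.P236Z.Det

open Vale.Agent.P251.F Vale.Agent.P251.I Vale.Agent.P251.F.Cob MvPolynomial LawRing

section Gen

variable {N : Type} [CommRing N] [LawRing N] {n m : ℕ} {B : Type} [CommRing B]

theorem ev_eR (c : Chain N 1 B) (z : N) : ev c (eR N z) = act (c.g 1) c.pt z := by
  rw [eR, RingHom.comp_apply, ev_map_res, ev_C, Chain.res_pt]
  rfl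

theorem map_C_of_zero (α : Fin (m + 1) → Fin (n + 1)) (h : α 0 = 0) (z : N) :
    Cob.map α (C z : Cob N m) = C z := by
  apply ext_ev
  intro B _ c
  rw [ev_map_res, ev_C, ev_C, Chain.res_pt, h, c.zero, act_one]

/-- the differential of a `0`-cochain -/
noncomputable def D (z : N) : Cob N 1 := eR N z - C z

theorem d_C (z : N) : d 0 (C z : Cob N 0) = D z := by
  rw [d_apply, Fin.sum_univ_two, map_C_of_zero (Fin.succAbove (1 : Fin 2)) rfl]
  simp [D, eR, sub_eq_add_neg]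

theorem d_D (z : N) : d 1 (D z) = 0 := by rw [← d_C, d_d]

theorem eR_eq (z : N) : eR N z = C z + D z := by rw [D]; ring

theorem D_add (x y : N) : D (x + y) = D x + D y := by simp only [D, map_add]; ring

theorem D_sub (x y : N) : D (x - y) = D x - D y := by simp only [D, map_sub]; ring

theorem D_neg (x : N) : D (-x) = - D x := by simp only [D, map_neg]; ring

theorem D_zero : D (0 : N) = 0 := by simp only [D, map_zero]; ring

theorem D_int (c : ℤ) (x : N) : D ((c : N) * x) = (c : Cob N 1) * D x := by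
  simp only [D, map_mul, map_intCast]; ring

omit [LawRing N] in
theorem exists_C (x : Cob N 0) : ∃ z : N, x = C z := ⟨_, MvPolynomial.eq_C_of_isEmpty x⟩

theorem proj_mul {v : ℤ} {a : Cob N n} (ha : IsWt v a) (w : ℤ) (x : Cob N n) :
    proj (v + w) (a * x) = a * proj w x := by
  conv_lhs => rw [← sum_proj x, Finset.mul_sum]
  rw [show ∀ (t : Finset ℤ) (f : ℤ → Cob N n), proj (v + w) (∑ i ∈ t, f i) =
    ∑ i ∈ t, proj (v + w) (f i) from fun t f => _root_.map_sum (projHom N n (v + w)) f t]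
  have h1 : ∀ i ∈ wts x, proj (v + w) (a * proj i x) = if w = i then a * proj w x else 0 := by
    intro i _
    rw [proj_of_isWt (ha.mul (isWt_proj i x))]
    by_cases hi : w = i
    · subst hi; simp
    · rw [if_neg, if_neg hi]
      intro h; exact hi (by linarith)
  rw [Finset.sum_congr rfl h1, Finset.sum_ite_eq (wts x) w fun _ => a * proj w x]
  split_ifs with h
  · rfl
  · rw [proj_eq_zero h, mul_zero]

theorem proj_self {w : ℤ} {x : Cob N n} (hx : IsWt w x) : proj w x = x := by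
  rw [proj_of_isWt hx, if_pos rfl]

theorem proj_sub (w : ℤ) (x y : Cob N n) : proj w (x - y) = proj w x - proj w y :=
  map_sub (projHom N n w) x y

theorem dvd_proj {v : ℤ} {a x : Cob N n} (ha : IsWt v a) (w : ℤ) (h : a ∣ x) : a ∣ proj w x := by
  obtain ⟨y, rfl⟩ := h
  rw [show w = v + (w - v) by ring, proj_mul ha]
  exact dvd_mul_right _ _

theorem isWt_cast {v w : ℤ} {x : Cob N n} (hx : IsWt v x) (h : v = w) : IsWt w x := h ▸ hx

theorem isWt_sub {w : ℤ} {x y : Cob N n} (hx : IsWt w x) (hy : IsWt w y) : IsWt w (x - y) := by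
  rw [sub_eq_add_neg]; exact hx.add hy.neg

theorem isWt_int (c : ℤ) : IsWt 0 (c : Cob N n) := fun B _ ch u => by
  rw [map_intCast, map_intCast, zpow_zero, Units.val_one, one_mul]

theorem isWt_int_mul (c : ℤ) {w : ℤ} {x : Cob N n} (hx : IsWt w x) :
    IsWt w ((c : Cob N n) * x) := isWt_cast ((isWt_int c).mul hx) (zero_add w)

theorem isWt_three : IsWt 0 (3 : Cob N n) := by
  have := isWt_int (N := N) (n := n) 3
  rwa [Int.cast_ofNat] at this

theorem Wt.isWt_C {w : ℤ} {z : N} (hz : Wt w z) (n : ℕ) : IsWt w (C z : Cob N n) := by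
  have := IsWt.map (n := n) hz (fun _ => 0)
  rwa [map_C_of_zero _ rfl] at this

theorem Wt.isWt_D {w : ℤ} {z : N} (hz : Wt w z) : IsWt w (D z) := by
  rw [← d_C]; exact IsWt.d hz

theorem Wt.cast {v w : ℤ} {z : N} (hz : Wt v z) (h : v = w) : Wt w z := h ▸ hz

theorem Wt.mul {v w : ℤ} {x y : N} (hx : Wt v x) (hy : Wt w y) : Wt (v + w) (x * y) := by
  unfold Wt; rw [map_mul]; exact IsWt.mul hx hy

theorem Wt.pow {v : ℤ} {x : N} (hx : Wt v x) (k : ℕ) : Wt (k * v) (x ^ k) := by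
  unfold Wt; rw [map_pow]; exact IsWt.pow hx k

theorem Wt.add {w : ℤ} {x y : N} (hx : Wt w x) (hy : Wt w y) : Wt w (x + y) := by
  unfold Wt; rw [map_add]; exact IsWt.add hx hy

theorem Wt.sub {w : ℤ} {x y : N} (hx : Wt w x) (hy : Wt w y) : Wt w (x - y) := by
  unfold Wt; rw [map_sub]; exact isWt_sub hx hy

theorem Wt.int_mul {w : ℤ} {x : N} (c : ℤ) (hx : Wt w x) : Wt w ((c : N) * x) := by
  unfold Wt; rw [map_mul, map_intCast]; exact isWt_int_mul c hx

/-- a homogeneous element congruent to a coboundary is congruent to the coboundary of a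
homogeneous element -/
theorem exists_wt_dvd {v w : ℤ} {a x : Cob N 1} (ha : IsWt v a) (hx : IsWt w x) {g : N}
    (h : a ∣ D g - x) : ∃ g' : N, Wt w g' ∧ a ∣ D g' - x := by
  obtain ⟨g', hg'⟩ := exists_C (proj w (C g : Cob N 0))
  refine ⟨g', by unfold Wt; rw [← hg']; exact isWt_proj _ _, ?_⟩
  have := dvd_proj ha w h
  rwa [proj_sub, proj_self hx, ← d_C, proj_d, hg', d_C] at this

theorem exists_wt_eq {w : ℤ} {x : Cob N 1} (hx : IsWt w x) {g : N}
    (h : x = D g) : ∃ g' : N, Wt w g' ∧ x = D g' := by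
  obtain ⟨g', h1, h2⟩ := exists_wt_dvd (isWt_zero 0) hx (g := g) (by rw [h, sub_self])
  exact ⟨g', h1, (sub_eq_zero.1 (zero_dvd_iff.1 h2)).symm⟩

/-- Leibniz rule in bidegree `(0,1)` -/
theorem d_C_mul (a : N) (h : Cob N 1) : d 1 (C a * h) = C a * d 1 h +
    Cob.map (Fin.succAbove (2 : Fin 3)) (D a) * Cob.map (Fin.succAbove (0 : Fin 3)) h := by
  have e1 : Cob.map (Fin.succAbove (1 : Fin 3)) (C a : Cob N 1) = C a := map_C_of_zero _ rfl a
  have e2 : Cob.map (Fin.succAbove (2 : Fin 3)) (C a : Cob N 1) = C a := map_C_of_zero _ rfl a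
  have e0 : Cob.map (Fin.succAbove (2 : Fin 3)) (eR N a) =
      Cob.map (Fin.succAbove (0 : Fin 3)) (C a : Cob N 1) := by
    apply ext_ev
    intro B _ c
    rw [ev_map_res, ev_map_res, ev_eR, ev_C, Chain.res_pt, Chain.res_pt, Chain.res_g, ← act_mul,
      inv_mul_cancel_right]
    rfl
  rw [d_apply, d_apply, Fin.sum_univ_three, Fin.sum_univ_three, D, map_sub, e0, e2]
  simp only [map_mul, e1, e2, Fin.val_zero, pow_zero, one_smul, Fin.val_one, pow_one, neg_smul,
    Fin.val_two, even_two, Even.neg_pow, one_pow]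
  ring

end Gen

/-! ### reduction modulo three -/

variable {n : ℕ}

theorem I_eq (h : ℕ) : Laz.I 3 h = Ideal.span ((fun i => Laz.v 3 i) '' {i | i < h}) := by
  rw [Laz.I, Ih]
  congr 1

theorem v_zero : Laz.v 3 0 = 3 := by
  rw [Laz.v, vv_zero]; rfl

theorem I_one : Laz.I 3 1 = Ideal.span {(3 : Laz)} := by
  rw [I_eq, show {i : ℕ | i < 1} = {0} from by ext i; simp, Set.image_singleton, v_zero]

theorem I_two : Laz.I 3 2 = Ideal.span {(3 : Laz), Laz.v 3 1} := by
  rw [I_eq, show {i : ℕ | i < 2} = {0, 1} from by ext i; simp; omega, Set.image_pair, v_zero]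

theorem I_three : Laz.I 3 3 = Ideal.span {(3 : Laz), Laz.v 3 1, Laz.v 3 2} := by
  rw [I_eq, show {i : ℕ | i < 3} = {0, 1, 2} from by ext i; simp; omega, Set.image_insert_eq,
    Set.image_pair, v_zero]

theorem IJ_eq : Laz.IJ 3 1 1 = Ideal.span {(3 : Laz)} := by
  rw [IJ_one_eq 3 one_ne_zero, I_one]

theorem mk3_surjective : Function.Surjective mk3 := Ideal.Quotient.mk_surjective

theorem mk3_eq_zero {z : Laz} : mk3 z = 0 ↔ (3 : Laz) ∣ z := by
  rw [mk3, Ideal.Quotient.eq_zero_iff_mem, IJ_eq, Ideal.mem_span_singleton]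

theorem red_eq_zero {x : Cob Laz n} : red n x = 0 ↔ (3 : Cob Laz n) ∣ x := by
  rw [red, mk3, Cob.mapRing_mk_eq_zero_iff, IJ_eq, Ideal.map_span, Set.image_singleton,
    Ideal.mem_span_singleton, map_ofNat]

theorem red_surjective : Function.Surjective (red n) := mapRing_surjective mk3_surjective

theorem isLawHom_mk3 : IsLawHom mk3 := isLawHom_mk_QN 3 1 1

theorem red_d (x : Cob Laz n) : red (n + 1) (d n x) = d n (red n x) := mapRing_d isLawHom_mk3 x

theorem red_C (z : Laz) : red n (C z) = C (mk3 z) := by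
  rw [red, mapRing, MvPolynomial.map_C]

theorem red_D (z : Laz) : red 1 (D z) = D (mk3 z) := by
  rw [← d_C, red_d, red_C, d_C]

theorem isWt_red {w : ℤ} {x : Cob Laz n} (hx : IsWt w x) : IsWt w (red n x) :=
  hx.mapRing isLawHom_mk3

theorem exists_wt_lift {w : ℤ} {z : L3} (hz : Wt w z) : ∃ Z : Laz, Wt w Z ∧ mk3 Z = z := by
  obtain ⟨x, hx, e⟩ := Cob.exists_isWt_mapRing_mk 3 1 1 hz
  obtain ⟨Z, rfl⟩ := exists_C x
  refine ⟨Z, hx, ?_⟩
  have h : (C (mk3 Z) : Cob L3 0) = C z := by rw [← red_C]; exact e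
  exact MvPolynomial.C_injective _ _ h

instance : IsDomain L3 := by
  have : (Laz.IJ 3 1 1).IsPrime := by
    rw [IJ_one_eq 3 one_ne_zero]; infer_instance
  exact Ideal.Quotient.isDomain _

theorem three_L3 : (3 : L3) = 0 := by
  have : mk3 3 = 0 := mk3_eq_zero.2 dvd_rfl
  rwa [map_ofNat] at this

theorem three_C3 : (3 : Cob L3 n) = 0 := by
  rw [← map_ofNat (C : L3 →+* Cob L3 n) 3, three_L3, map_zero]

instance : CharP L3 3 := (CharP.charP_iff_prime_eq_zero Nat.prime_three).2 (by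
  exact_mod_cast three_L3)

instance : CharP (Cob L3 n) 3 := (CharP.charP_iff_prime_eq_zero Nat.prime_three).2 (by
  exact_mod_cast three_C3)

theorem vb_one_ne : vb 1 ≠ 0 := by
  intro h
  rw [vb, mk3, Ideal.Quotient.eq_zero_iff_mem, IJ_one_eq 3 one_ne_zero] at h
  exact v_notMem_I 3 le_rfl h

/-- `v_1` as a cochain modulo `3` -/
noncomputable abbrev V : Cob L3 1 := C (vb 1)

theorem V_ne : V ≠ 0 := fun h => vb_one_ne (MvPolynomial.C_eq_zero.1 h)

theorem wt_v (i : ℕ) : Wt ((3 ^ i - 1 : ℕ) : ℤ) (Laz.v 3 i) := isWt_v 3 i (by norm_num) 0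

theorem Wt.mk3 {w : ℤ} {z : Laz} (hz : Wt w z) : Wt w (mk3 z) := by
  unfold Wt; rw [← red_C]; exact isWt_red hz

theorem wt_v1 : Wt 2 (Laz.v 3 1) := (wt_v 1).cast (by norm_num)

theorem wt_vb1 : Wt 2 (vb 1) := wt_v1.mk3

theorem isWt_V : IsWt 2 V := wt_vb1.isWt_C 1

theorem isWt_V_pow (i : ℕ) : IsWt (2 * i) (V ^ i) := isWt_cast (isWt_V.pow i) (mul_comm _ _)

theorem three_cancel {x y : Cob Laz n} (h : 3 * x = 3 * y) : x = y :=
  mul_left_cancel₀ (by norm_num : (3 : Cob Laz n) ≠ 0) h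

theorem D_v1 {t1 : Cob Laz 1} (ht : IsT1 3 t1) : D (Laz.v 3 1) = 3 * t1 := by
  have h : ((3 : ℕ) : ℤ) • t1 = _ := ht
  rw [d_C, zsmul_eq_mul] at h
  rw [← h]; push_cast; rfl

theorem eR_vb1 : eR L3 (vb 1) = V := by
  obtain ⟨t1, ht⟩ := T1 3
  have h : D (vb 1) = 0 := by
    rw [vb, ← red_D, D_v1 ht, red_eq_zero]; exact dvd_mul_right _ _
  rw [eR_eq, h, add_zero]

theorem D_v_mul (i : ℕ) (z : L3) : D (vb 1 ^ i * z) = V ^ i * D z := by
  simp only [D, map_mul, map_pow, eR_vb1]; ring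

theorem D_frob (k : ℕ) (z : L3) : D (z ^ 3 ^ k) = D z ^ 3 ^ k := by
  simp only [D, map_pow]
  rw [sub_pow_char_pow]

theorem Wt.of_v_mul {w : ℤ} {z : L3} (h : Wt w (vb 1 * z)) : Wt (w - 2) z := by
  have h1 : proj (2 + (w - 2)) ((C (vb 1) : Cob L3 0) * C z) = C (vb 1) * proj (w - 2) (C z) :=
    proj_mul wt_vb1 _ _
  rw [show 2 + (w - 2) = w by ring, ← map_mul, proj_self h, map_mul] at h1
  have h2 := mul_left_cancel₀ (fun h => vb_one_ne (MvPolynomial.C_eq_zero.1 h)) h1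
  unfold Wt
  rw [h2]
  exact isWt_proj _ _

theorem V_cancel {i : ℕ} {x : Cob L3 1} (h : V ^ (i + 1) ∣ V * x) : V ^ i ∣ x := by
  rw [pow_succ'] at h
  exact (mul_dvd_mul_iff_left V_ne).1 h

theorem int_eq_zero_L3 {c : ℤ} (h : (3 : ℤ) ∣ c) : (c : L3) = 0 := by
  obtain ⟨k, rfl⟩ := h
  push_cast
  rw [three_L3, zero_mul]

theorem int_ne_zero_zmod {c : ℤ} (h : ¬ (3 : ℤ) ∣ c) : (c : ZMod 3) ≠ 0 := fun h' =>
  h ((ZMod.intCast_zmod_eq_zero_iff_dvd c 3).1 h')

end Vale.Agent.P236Z.Det
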