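import Vale.Agent.P236Z.Det.P

/-!
# P236, block DET: the Bockstein from `3` to `9`
-/

namespace Vale.Agent.P236Z.Det

open Vale.Agent.P251.F Vale.Agent.P251.I Vale.Agent.P251.F.Cob MvPolynomial

/-- `v_1` as an integral cochain -/
noncomputable abbrev U : Cob Laz 1 := C (Laz.v 3 1)

theorem red_U : red 1 U = V := red_C _

theorem red_three (n : ℕ) : red n 3 = 0 := red_eq_zero.2 dvd_rfl

theorem lift_D {X : L3} {a : ℕ} {κ : Cob L3 1} (h : D X = V ^ a * κ) {Z : Laz} (hZ : mk3 Z = X) :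
    ∃ k e : Cob Laz 1, red 1 k = κ ∧ eR Laz Z = C Z + U ^ a * k + 3 * e := by
  obtain ⟨k, rfl⟩ := red_surjective κ
  have h1 : red 1 (D Z - U ^ a * k) = 0 := by
    rw [map_sub, red_D, hZ, h, map_mul, map_pow, red_U, sub_self]
  obtain ⟨e, he⟩ := red_eq_zero.1 h1
  exact ⟨k, e, rfl, by rw [eR_eq, add_assoc, ← he]; ring⟩

theorem eR_U {t1 : Cob Laz 1} (ht : IsT1 3 t1) : eR Laz (Laz.v 3 1) = U + 3 * t1 := by
  rw [eR_eq, D_v1 ht]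

theorem eR_U_pow {t1 : Cob Laz 1} (ht : IsT1 3 t1) {J : ℕ} (hJ : 3 ∣ J) :
    ∃ r, eR Laz (Laz.v 3 1) ^ J = U ^ J + 9 * r := by
  obtain ⟨k, rfl⟩ := hJ
  obtain ⟨q, hq⟩ := pow0 (U ^ 3) (9 * (U ^ 2 * t1 + 3 * U * t1 ^ 2 + 3 * t1 ^ 3)) k
  refine ⟨(U ^ 2 * t1 + 3 * U * t1 ^ 2 + 3 * t1 ^ 3) * q, ?_⟩
  rw [pow_mul, pow_mul, eR_U ht, show (U + 3 * t1) ^ 3 =
    U ^ 3 + 9 * (U ^ 2 * t1 + 3 * U * t1 ^ 2 + 3 * t1 ^ 3) by ring, hq]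
  ring

/-- some lift `Z` of `ζ` has `d Z = 3 E` modulo `v_1 ^ J`, and `E` reduces to `e` -/
def Bock (J : ℕ) (ζ : L3) (e : Cob L3 1) : Prop :=
  ∃ (Z : Laz) (A E : Cob Laz 1), mk3 Z = ζ ∧ D Z = U ^ J * A + 3 * E ∧ red 1 E = e

theorem Bock.add {J : ℕ} {ζ ζ' : L3} {e e' : Cob L3 1} (h : Bock J ζ e) (h' : Bock J ζ' e') :
    Bock J (ζ + ζ') (e + e') := by
  obtain ⟨Z, A, E, rfl, h1, rfl⟩ := h
  obtain ⟨Z', A', E', rfl, h1', rfl⟩ := h'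
  exact ⟨Z + Z', A + A', E + E', map_add _ _ _, by rw [D_add, h1, h1']; ring, map_add _ _ _⟩

theorem Bock.int_mul {J : ℕ} {ζ : L3} {e : Cob L3 1} (c : ℤ) (h : Bock J ζ e) :
    Bock J (c * ζ) (c * e) := by
  obtain ⟨Z, A, E, rfl, h1, rfl⟩ := h
  exact ⟨c * Z, c * A, c * E, by rw [map_mul, map_intCast], by rw [D_int, h1]; ring,
    by rw [map_mul, map_intCast]⟩

theorem Bock.unique {J : ℕ} {ζ : L3} {e e' : Cob L3 1} (h : Bock J ζ e) (h' : Bock J ζ e') :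
    ∃ u : L3, V ^ J ∣ D u - (e - e') := by
  obtain ⟨Z, A, E, hZ, h1, rfl⟩ := h
  obtain ⟨Z', A', E', hZ', h1', rfl⟩ := h'
  obtain ⟨u, hu⟩ := mk3_eq_zero.1 (show mk3 (Z - Z') = 0 by rw [map_sub, hZ, hZ', sub_self])
  have h2 : 3 * D u = U ^ J * (A - A') + 3 * (E - E') := by
    have : D (Z - Z') = 3 * D u := by
      have := D_int 3 u
      rw [hu]; exact_mod_cast this
    rw [← this, D_sub, h1, h1']; ring
  have h3 : red 1 (A - A') = 0 := by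
    have := congrArg (red 1) h2
    rw [map_mul, map_add, map_mul, map_mul, red_three, zero_mul, zero_mul, add_zero, map_pow,
      red_U] at this
    exact (mul_eq_zero.1 this.symm).resolve_left (pow_ne_zero _ V_ne)
  obtain ⟨B, hB⟩ := red_eq_zero.1 h3
  have h4 : D u = U ^ J * B + (E - E') := three_cancel (by rw [h2, hB]; ring)
  refine ⟨mk3 u, red 1 B, ?_⟩
  rw [← red_D, h4, map_add, map_mul, map_pow, red_U, map_sub]
  ring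

theorem Bock.of_dvd {J : ℕ} {ζ : L3} {e : Cob L3 1} (h : Bock J ζ e) (he : V ^ J ∣ e) :
    Bock J ζ 0 := by
  obtain ⟨Z, A, E, hZ, h1, rfl⟩ := h
  obtain ⟨b, hb⟩ := he
  obtain ⟨b, rfl⟩ := red_surjective b
  refine ⟨Z, A + 3 * b, E - U ^ J * b, hZ, by rw [h1]; ring, ?_⟩
  rw [map_sub, hb, map_mul, map_pow, red_U, sub_self]

theorem bock_top {t1 : Cob Laz 1} (ht : IsT1 3 t1) {J : ℕ} (hJ : 3 ∣ J) (z : L3) :
    Bock J (vb 1 ^ J * z) 0 := by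
  obtain ⟨Z, rfl⟩ := mk3_surjective z
  obtain ⟨r, hr⟩ := eR_U_pow ht hJ
  refine ⟨Laz.v 3 1 ^ J * Z, D Z, 3 * (r * eR Laz Z), by rw [map_mul, map_pow]; rfl, ?_, ?_⟩
  · simp only [D, map_mul, map_pow, hr]
    ring
  · rw [map_mul, red_three, zero_mul]

theorem Bock.shift {J : ℕ} {ζ y : L3} (h : Bock J ζ 0) (hy : V ^ J ∣ D y) :
    Bock J (y ^ 3 * ζ) 0 := by
  obtain ⟨Z, A, E, rfl, h1, h2⟩ := h
  obtain ⟨Y, rfl⟩ := mk3_surjective y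
  obtain ⟨κ, hκ⟩ := hy
  obtain ⟨k, e, -, hY⟩ := lift_D hκ rfl
  refine ⟨Y ^ 3 * Z, eR Laz Y ^ 3 * A + k * (3 * (C Y + 3 * e) ^ 2 +
      3 * (C Y + 3 * e) * (U ^ J * k) + (U ^ J * k) ^ 2) * C Z,
    eR Laz Y ^ 3 * E + 3 * ((C Y ^ 2 * e + 3 * C Y * e ^ 2 + 3 * e ^ 3) * C Z),
    by rw [map_mul, map_pow], ?_, ?_⟩
  · rw [D, map_mul, map_mul, map_pow, map_pow, eR_eq Z, h1, hY]
    ring
  · rw [map_add, map_mul, map_mul, h2, red_three, mul_zero, zero_mul, add_zero]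

theorem bock_cube {t1 : Cob Laz 1} (ht : IsT1 3 t1) {J i a : ℕ} (hi : 3 ∣ i) (hJ : J ≤ i + 3 * a)
    {X : L3} {κ : Cob L3 1} (h : D X = V ^ a * κ) :
    Bock J (vb 1 ^ i * X ^ 3) (V ^ (i + a) * (C X ^ 2 * κ + V ^ a * (C X * κ ^ 2))) := by
  obtain ⟨Z, rfl⟩ := mk3_surjective X
  obtain ⟨k, e, rfl, hZ⟩ := lift_D h rfl
  obtain ⟨r, hr⟩ := eR_U_pow ht hi
  obtain ⟨l, hl⟩ := Nat.exists_eq_add_of_le hJ
  refine ⟨Laz.v 3 1 ^ i * Z ^ 3, U ^ l * k ^ 3,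
    U ^ (i + a) * (C Z ^ 2 * k + U ^ a * (C Z * k ^ 2)) + 3 * (r * eR Laz Z ^ 3 +
      U ^ i * ((C Z + U ^ a * k) ^ 2 * e + 3 * (C Z + U ^ a * k) * e ^ 2 + 3 * e ^ 3)),
    by rw [map_mul, map_pow, map_pow]; rfl, ?_, ?_⟩
  · have e1 : U ^ J * (U ^ l * k ^ 3) = U ^ i * (U ^ a) ^ 3 * k ^ 3 := by
      rw [← mul_assoc, ← pow_add, ← hl]; ring
    rw [e1, D, map_mul, map_mul, map_pow, map_pow, map_pow, map_pow, hr, hZ]
    ring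
  · simp only [map_add, map_mul, map_pow, red_three, zero_mul, add_zero, red_C]
    rfl

theorem bock_zero {t1 : Cob Laz 1} (ht : IsT1 3 t1) {i : ℕ} (hi : 3 ∣ i + 2)
    {X : L3} (h : V ∣ D X) : ∃ q, Bock (i + 2) (vb 1 ^ (i + 1) * X)
      (V ^ i * (- (red 1 t1 * C X) + V * q)) := by
  obtain ⟨Z, rfl⟩ := mk3_surjective X
  obtain ⟨κ, hκ⟩ := h
  obtain ⟨k, e, rfl, hZ⟩ := lift_D (a := 1) (by rw [pow_one]; exact hκ) rfl
  obtain ⟨r, hr⟩ := pow1 U (3 * t1) i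
  obtain ⟨l, hl⟩ := hi
  have hc : ((i + 1 : ℕ) : Cob Laz 1) = 3 * l - 1 := by
    have : ((i + 2 : ℕ) : Cob Laz 1) = ((3 * l : ℕ) : Cob Laz 1) := by rw [hl]
    push_cast at this ⊢
    linear_combination this
  refine ⟨red 1 (e - t1 * k), Laz.v 3 1 ^ (i + 1) * Z, k,
    U ^ i * (- (t1 * C Z) + U * (e - t1 * k)) + 3 * ((l : Cob Laz 1) * U ^ i * t1 * eR Laz Z - U ^ i * t1 * e +
      t1 ^ 2 * r * eR Laz Z), by rw [map_mul, map_pow]; rfl, ?_, ?_⟩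
  · rw [D, map_mul, map_mul, map_pow, map_pow, eR_U ht, hr, hc, hZ]
    ring
  · simp only [map_add, map_mul, map_pow, map_neg, red_three, zero_mul, add_zero, red_C]
    rfl

namespace Dat

variable {t1 : Cob Laz 1} (d : Dat t1)

theorem ε_C {X : L3} {m : ℕ} (h : vb 1 ∣ X - d.w2 ^ m) : d.ε (C X) = 1 := by
  obtain ⟨q, hq⟩ := h
  rw [show X = d.w2 ^ m + vb 1 * q by rw [← hq]; ring, map_add, map_mul, map_add, map_mul,
    d.εV, map_pow, map_pow, d.εW]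
  ring

/-- the elements `X_n` and the leading terms of their Bocksteins -/
theorem top (ht : IsT1 3 t1) {n s J : ℕ} (hs : ¬ 3 ∣ s) (h2 : 2 ≤ s) (hJ : 3 ∣ J)
    (hJ3 : 3 ≤ J) (hn : 3 ^ n ≤ J) : ∃ (X : L3) (κ q : Cob L3 1), Wt (8 * (s * 3 ^ n : ℕ)) X ∧
      vb 1 ∣ X - d.w2 ^ (s * 3 ^ n) ∧ V ^ 3 ^ n ∣ D X ∧ rho n ≤ J ∧
      Bock J (vb 1 ^ (J - 3 ^ n) * X) (V ^ (J - rho n) * (κ + V * q)) ∧ d.ε κ ≠ 0 ∧
      IsWt (8 * (s * 3 ^ n : ℕ) - 2 * (3 ^ n : ℕ) + 2 * rho n) κ := by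
  have cube : ∀ (n a : ℕ) (X : L3) (κ : Cob L3 1), d.Lead (s * 3 ^ n) a X κ → 1 ≤ a →
      3 ^ (n + 1) ≤ J → 3 ^ (n + 1) ≤ 3 * a → rho (n + 1) + a = 3 ^ (n + 1) →
      ∃ (X : L3) (κ q : Cob L3 1), Wt (8 * (s * 3 ^ (n + 1) : ℕ)) X ∧
      vb 1 ∣ X - d.w2 ^ (s * 3 ^ (n + 1)) ∧ V ^ 3 ^ (n + 1) ∣ D X ∧ rho (n + 1) ≤ J ∧
      Bock J (vb 1 ^ (J - 3 ^ (n + 1)) * X) (V ^ (J - rho (n + 1)) * (κ + V * q)) ∧
      d.ε κ ≠ 0 ∧
      IsWt (8 * (s * 3 ^ (n + 1) : ℕ) - 2 * (3 ^ (n + 1) : ℕ) + 2 * rho (n + 1)) κ := by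
    rintro n a X κ ⟨hw, hv, hκw, hκ, q, hq⟩ ha hn h3 hr
    obtain ⟨a, rfl⟩ : ∃ a', a = a' + 1 := ⟨a - 1, by omega⟩
    have hB := bock_cube ht (J := J) (i := J - 3 ^ (n + 1))
      (Nat.dvd_sub hJ (dvd_pow_self 3 (by omega))) (by omega) hq
    refine ⟨X ^ 3, C X ^ 2 * κ, C X ^ 2 * q + V ^ a * (C X * (κ + V * q) ^ 2),
      (hw.pow 3).cast (by push_cast; ring), ?_, ?_, by omega, ?_, ?_, ?_⟩
    · rw [pow_succ 3 n, ← mul_assoc, pow_mul d.w2 _ 3]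
      exact hv.trans (sub_dvd_pow_sub_pow _ _ 3)
    · rw [D_cube, hq, mul_pow, ← pow_mul]
      exact (pow_dvd_pow _ (by omega)).mul_right _
    · rw [show J - rho (n + 1) = J - 3 ^ (n + 1) + (a + 1) by omega,
        show C X ^ 2 * κ + V * (C X ^ 2 * q + V ^ a * (C X * (κ + V * q) ^ 2)) =
          C X ^ 2 * (κ + V * q) + V ^ (a + 1) * (C X * (κ + V * q) ^ 2) by ring]
      exact hB
    · rw [map_mul, map_pow, d.ε_C hv, one_pow, one_mul]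
      exact hκ
    · refine isWt_cast (((hw.isWt_C 1).pow 2).mul hκw) ?_
      have : ((rho (n + 1) + (a + 1) : ℕ) : ℤ) = ((3 ^ (n + 1) : ℕ) : ℤ) := by rw [hr]
      push_cast at this ⊢
      linear_combination (-2 : ℤ) * this
  rcases n with _ | _ | n
  · obtain ⟨i, rfl⟩ : ∃ i, J = i + 2 := ⟨J - 2, by omega⟩
    obtain ⟨q, hq⟩ := bock_zero ht hJ (d.V_dvd_D_pow s)
    refine ⟨d.w2 ^ s, - (red 1 t1 * C (d.w2 ^ s)), q, (d.wt2.pow s).cast (by push_cast; ring),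
      by simp, by simpa using d.V_dvd_D_pow s, by simp [rho], hq, ?_, ?_⟩
    · rw [map_neg, map_mul, map_pow, map_pow, d.εW, one_pow, mul_one]
      exact neg_ne_zero.2 d.εt1
    · refine isWt_cast ((isWt_red (isWt_t1 ht)).mul ((d.wt2.pow s).isWt_C 1)).neg ?_
      simp only [rho]
      push_cast
      ring
  · obtain ⟨κ, hκ⟩ := d.lead_zero hs
    exact cube 0 1 _ κ (by simpa using hκ) le_rfl hn (by norm_num) rfl
  · have hp : 0 < 3 ^ n := by positivity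
    obtain ⟨X, κ, hκ⟩ := d.lead_succ (i := n) (a := 4 * 3 ^ n - 1) hs h2 (by omega)
    refine cube (n + 1) _ X κ hκ (by omega) hn ?_ ?_
    · simp only [pow_succ]; omega
    · simp only [rho, pow_succ]; omega

end Dat

end Vale.Agent.P236Z.Det
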