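import Vale.Agent.P251.F.T1Coc
import Vale.Agent.P251.F.CobLoc
import Vale.Agent.P251.F.LazReg

/-!
# P236, block DET: the algebra of the detection theorem at `p = 3` (definitions and statements)

`Cob Laz n` is the cobar complex of the Lazard ring, `Cob L3 n` its reduction modulo `3`.
`LIST`, `LOW` are the two statements used by the topology; the other `Prop`s are the blocks
of the proof.
-/

namespace Vale.Agent.P236Z.Det

open Vale.Agent.P251.F Vale.Agent.P251.I Vale.Agent.P251.F.Cob MvPolynomial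

instance fact3 : Fact (Nat.Prime 3) := ⟨Nat.prime_three⟩

/-- the invariant ideal `(3, v_1, v_2)` of the cobar complex -/
noncomputable def II (n : ℕ) : Ideal (Cob Laz n) := (Laz.I 3 3).map (C : Laz →+* Cob Laz n)

/-- the weight `2 * 3 ^ (j + 1)` -/
def w0 (j : ℕ) : ℤ := 2 * 3 ^ (j + 1)

/-- The list of second cohomology classes in weight `w0 j`. -/
def LIST (j : ℕ) : Prop :=
  ∀ t1 : Cob Laz 1, IsT1 3 t1 → ∃ b : ℕ, ∀ x : Cob Laz 2, IsWt (w0 j) x →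
    (3 : Cob Laz 3) ^ b ∣ d 2 x → ∃ (h : Cob Laz 1) (c : ℤ), IsWt (w0 j) h ∧
      (3 : Cob Laz 2) ^ 4 ∣ 3 * x - d 1 h ∧ h - c * t1 ^ (3 ^ (j + 1)) ∈ II 1 ∧
      ((3 : ℤ) ∣ c → ∃ y : Cob Laz 1, IsWt (w0 j) y ∧ x - d 1 y ∈ II 2)

/-- Invariants modulo a large power of `3` are divisible by a large power of `3`. -/
def LOW (j : ℕ) : Prop :=
  ∀ a : ℕ, ∃ b : ℕ, ∀ f : Cob Laz 0, IsWt (w0 j) f → (3 : Cob Laz 1) ^ b ∣ d 0 f →
    (3 : Cob Laz 0) ^ a ∣ f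

/-! ### reduction modulo three -/

/-- `Laz / 3` -/
abbrev L3 : Type := QN 3 1 1

/-- the projection `Laz → Laz / 3` -/
noncomputable def mk3 : Laz →+* L3 := Ideal.Quotient.mk (Laz.IJ 3 1 1)

/-- reduction of cochains modulo `3` -/
noncomputable def red (n : ℕ) : Cob Laz n →+* Cob L3 n := mapRing mk3 n

/-- `v_i` modulo `3` -/
noncomputable def vb (i : ℕ) : L3 := mk3 (Laz.v 3 i)

/-- the right unit -/
noncomputable def eR (N : Type) [CommRing N] [LawRing N] : N →+* Cob N 1 :=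
  (Cob.map (Fin.succAbove (0 : Fin 2))).comp (C : N →+* Cob N 0)

/-- homogeneous elements of a law ring -/
def Wt {N : Type} [CommRing N] [LawRing N] (w : ℤ) (z : N) : Prop := IsWt w (C z : Cob N 0)

/-! ### the blocks -/

/-- (S) the central element `4` acts trivially on cohomology modulo `3 ^ N`. -/
def SAH : Prop :=
  (∀ (k N : ℕ) (x : Cob Laz 2), IsWt (k : ℤ) x → (3 : Cob Laz 3) ^ N ∣ d 2 x →
    ∃ h : Cob Laz 1, IsWt (k : ℤ) h ∧ (3 : Cob Laz 2) ^ N ∣ (4 ^ k - 1) * x - d 1 h) ∧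
  (∀ (k N : ℕ) (f : Cob Laz 0), IsWt (k : ℤ) f → (3 : Cob Laz 1) ^ N ∣ d 0 f →
    (3 : Cob Laz 0) ^ N ∣ (4 ^ k - 1) * f)

/-- (L) invariants modulo `(3, v_1)`. -/
def LAND : Prop :=
  ∀ (w : ℕ) (z : L3), Wt (w : ℤ) z → (C (vb 1) : Cob L3 1) ∣ eR L3 z - C z →
    vb 1 ∣ z ∨ ∃ (m : ℕ) (c : ℤ), w = 8 * m ∧ vb 1 ∣ z - c * vb 2 ^ m

/-- (H1) first cohomology at height one. -/
def HONE : Prop :=
  ∀ t1 : Cob Laz 1, IsT1 3 t1 → ∀ (e : ℕ) (Y : Cob L3 1), IsWt (2 * ((e : ℤ) + 1)) Y →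
    d 1 Y = 0 → ∃ (i : ℕ) (c : ℤ) (z : L3),
      C (vb 1) ^ i * (Y - (c : Cob L3 1) * (C (vb 1) ^ e * red 1 t1)) = eR L3 z - C z

/-- (N) normalized generators and the formulas for the right unit. -/
def NORM : Prop :=
  ∀ t1 : Cob Laz 1, IsT1 3 t1 → ∃ (w2 w3 g : L3) (t : Cob L3 1),
    Wt 8 w2 ∧ Wt 26 w3 ∧ Wt 2 g ∧ vb 1 ∣ w2 - vb 2 ∧
    t = - red 1 t1 + (eR L3 g - C g) ∧
    eR L3 w2 = C w2 + C (vb 1) ^ 3 * t - C (vb 1) * t ^ 3 ∧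
    (C (vb 1) : Cob L3 1) ∣ eR L3 w3 - (C w3 + C w2 ^ 3 * t - C w2 * t ^ 9)

/-- (EV) a strict automorphism of a law of height two over the prime field with `t_1 ≠ 0`. -/
def EVP : Prop :=
  ∀ t1 : Cob Laz 1, IsT1 3 t1 → ∃ ε : Cob L3 1 →+* ZMod 3,
    ε (C (vb 1)) = 0 ∧ ε (C (vb 2)) = 1 ∧ ε (red 1 t1) ≠ 0 ∧ ∀ z, ε (eR L3 z) = ε (C z)

end Vale.Agent.P236Z.Det
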