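import Vale.Agent.P236Z.Det.Sah
import Vale.Agent.P251.F.EndHonda

/-!
# P236, block DET: values of one-cochains on isomorphisms, density of the powers of two
-/

namespace Vale.Agent.P236Z.Det

open Vale.Agent.P217 Vale.Agent.P251.F Vale.Agent.P251.F.Cob LawRing InvSeries

namespace HOne

section Yh

variable {N : Type} [CommRing N] {B B' : Type} [CommRing B] [CommRing B']

/-- the chain of length one of an isomorphism -/
noncomputable def c1 (x : N →+* B) (g : InvSeries B) : Chain N 1 B where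
  pt := x
  g := ![1, Sah.st g]
  strict i := by
    fin_cases i
    · exact one_mem _
    · exact Sah.st_mem g
  zero := rfl

/-- the chain of length two of two isomorphisms with the same source -/
noncomputable def c2 (x : N →+* B) (a b : InvSeries B) : Chain N 2 B where
  pt := x
  g := ![1, Sah.st a, Sah.st b]
  strict i := by
    fin_cases i
    · exact one_mem _
    · exact Sah.st_mem a
    · exact Sah.st_mem b
  zero := rfl

/-- the value of a one-cochain on an isomorphism -/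
noncomputable def yh (Y : Cob N 1) (x : N →+* B) (g : InvSeries B) : B := ev (c1 x g) Y

theorem yh_map (Y : Cob N 1) (φ : B →+* B') (x : N →+* B) (g : InvSeries B) :
    φ (yh Y x g) = yh Y (φ.comp x) (InvSeries.map φ g) := by
  rw [yh, yh, ← ev_map]
  congr 2
  ext1
  · rfl
  · funext i
    fin_cases i
    · exact map_one (InvSeries.map φ)
    · exact Sah.map_st φ g

theorem c_st (g : InvSeries B) (n : ℕ) : (Sah.st g).c n = ((g.lead⁻¹ : Bˣ) : B) * g.c n := by
  rw [Sah.st, ← map_inv, InvSeries.c, mul_val, lin_val, PowerSeries.subst_mul g.hs,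
    PowerSeries.subst_X g.hs, PowerSeries.subst_C]
  exact PowerSeries.coeff_C_mul _ _ _

/-- the value depends on finitely many coefficients -/
theorem yh_lc (Y : Cob N 1) (x : N →+* B) : ∃ n, ∀ g g' : InvSeries B,
    (∀ i ≤ n, g.c i = g'.c i) → yh Y x g = yh Y x g' := by
  induction Y using MvPolynomial.induction_on with
  | C a => exact ⟨0, fun g g' _ => by rw [yh, yh, ev_C, ev_C]; rfl⟩
  | add p q hp hq =>
    obtain ⟨n, hn⟩ := hp
    obtain ⟨m, hm⟩ := hq
    refine ⟨max n m, fun g g' h => ?_⟩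
    have h1 := hn g g' fun i hi => h i (hi.trans (le_max_left _ _))
    have h2 := hm g g' fun i hi => h i (hi.trans (le_max_right _ _))
    rw [yh, yh] at h1 h2 ⊢
    rw [map_add, map_add, h1, h2]
  | mul_X p im hp =>
    obtain ⟨n, hn⟩ := hp
    obtain ⟨i, m⟩ := im
    refine ⟨max n (m + 1), fun g g' h => ?_⟩
    have h1 := hn g g' fun i hi => h i (hi.trans (le_max_left _ _))
    rw [yh, yh] at h1 ⊢
    rw [map_mul, map_mul, h1, ev_X, ev_X]
    obtain rfl : i = 0 := Subsingleton.elim _ _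
    have h2 : g.lead = g'.lead := Units.ext (h 0 (Nat.zero_le _))
    have h3 : (Sah.st g).c (m + 1) = (Sah.st g').c (m + 1) := by
      rw [c_st, c_st, h2, h _ (le_max_right _ _)]
    exact congrArg _ h3

variable [LawRing N]

/-- the twisted cocycle identity -/
theorem yh_mul {Y : Cob N 1} {w : ℤ} (hw : IsWt w Y) (hd : d 1 Y = 0) (x : N →+* B)
    (a g : InvSeries B) :
    yh Y x (a * g) = yh Y x g + ((g.lead ^ w : Bˣ) : B) * yh Y (act g x) a := by
  have h := ev_d (c2 x g (a * g)) Y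
  rw [hd, map_zero, Fin.sum_univ_three] at h
  have e0 : (c2 x g (a * g)).res (Fin.succAbove (0 : Fin 3)) = (c1 (act g x) a).scale g.lead := by
    ext1
    · change act (Sah.st g) x = act (lin g.lead)⁻¹ (act g x)
      rw [← act_mul]
      rfl
    · funext i
      fin_cases i
      · change Sah.st g * (Sah.st g)⁻¹ = (lin g.lead)⁻¹ * 1 * lin g.lead
        group
      · change Sah.st (a * g) * (Sah.st g)⁻¹ = (lin g.lead)⁻¹ * Sah.st a * lin g.lead
        rw [Sah.st_mul]
        unfold Sah.st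
        group
  have e1 : (c2 x g (a * g)).res (Fin.succAbove (1 : Fin 3)) = c1 x (a * g) := by
    ext1
    · exact act_one x
    · funext i
      fin_cases i
      · exact mul_inv_cancel _
      · change Sah.st (a * g) * (1 : InvSeries B)⁻¹ = Sah.st (a * g)
        rw [inv_one, mul_one]
  have e2 : (c2 x g (a * g)).res (Fin.succAbove (2 : Fin 3)) = c1 x g := by
    ext1
    · exact act_one x
    · funext i
      fin_cases i
      · exact mul_inv_cancel _
      · change Sah.st g * (1 : InvSeries B)⁻¹ = Sah.st g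
        rw [inv_one, mul_one]
  rw [e0, e1, e2, hw] at h
  simp only [Fin.val_zero, pow_zero, one_smul, Fin.val_one, pow_one, neg_smul, Fin.val_two,
    even_two, Even.neg_pow, one_pow] at h
  rw [yh, yh, yh]
  linear_combination h

end Yh

section Two

theorem four_pow (i : ℕ) : ∃ q : ℤ, (4 : ℤ) ^ (3 ^ i) = 1 + 3 ^ (i + 1) * (1 + 3 * q) := by
  induction i with
  | zero => exact ⟨0, by norm_num⟩
  | succ i ih =>
    obtain ⟨q, hq⟩ := ih
    refine ⟨q + 3 ^ i * (1 + 3 * q) ^ 2 + 3 ^ (2 * i) * (1 + 3 * q) ^ 3, ?_⟩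
    rw [pow_succ 3 i, pow_mul, hq]
    ring

/-- two generates the units modulo every power of three -/
theorem exists_two_pow (n : ℕ) {m : ℤ} (hm : ¬ (3 : ℤ) ∣ m) :
    ∃ k : ℕ, (3 : ℤ) ^ (n + 1) ∣ m - 2 ^ k := by
  induction n with
  | zero =>
    have h : (3 : ℤ) ∣ m - 1 ∨ (3 : ℤ) ∣ m - 2 := by omega
    rcases h with h | h
    · exact ⟨0, by simpa using h⟩
    · exact ⟨1, by simpa using h⟩
  | succ n ih =>
    obtain ⟨k, g, hg⟩ := ih
    obtain ⟨q, hq⟩ := four_pow n
    have hq' : (2 : ℤ) ^ (2 * 3 ^ n) = 1 + 3 ^ (n + 1) * (1 + 3 * q) := by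
      rw [pow_mul, ← hq]
      norm_num
    have hw : ¬ (3 : ℤ) ∣ 2 ^ k := fun h => by
      have := Int.prime_three.dvd_of_dvd_pow h
      omega
    have hm' : m = 2 ^ k + 3 ^ (n + 1) * g := by rw [← hg]; ring
    generalize hW : (2 : ℤ) ^ k = W at hw hm'
    have h : (3 : ℤ) ∣ g ∨ (3 : ℤ) ∣ g - W ∨ (3 : ℤ) ∣ g - 2 * W := by
      have h1 : W % 3 = 1 ∨ W % 3 = 2 := by omega
      have h2 : g % 3 = 0 ∨ g % 3 = 1 ∨ g % 3 = 2 := by omega
      rcases h1 with h1 | h1 <;> rcases h2 with h2 | h2 | h2 <;> omega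
    rcases h with ⟨a, ha⟩ | ⟨a, ha⟩ | ⟨a, ha⟩
    · refine ⟨k, a, ?_⟩
      rw [hW, hm', ha]
      ring
    · refine ⟨k + 2 * 3 ^ n, a - W * q, ?_⟩
      rw [pow_add, hW, hq', hm', show g = W + 3 * a by rw [← ha]; ring]
      ring
    · refine ⟨k + 2 * 3 ^ n + 2 * 3 ^ n, a - 2 * W * q - W * 3 ^ n * (1 + 3 * q) ^ 2, ?_⟩
      rw [pow_add, pow_add, hW, hq', hm', show g = 2 * W + 3 * a by rw [← ha]; ring]
      ring

variable {O : Type*} [Ring O] (D : SRing 3 O (ZMod 3)) (hS : ((3 : ℕ) : O) = D.S ^ 1)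

include hS in
theorem exists_int (f : O) (n : ℕ) : ∃ m : ℤ, f - m ∈ D.I n := by
  have hS' : D.S = 3 := by rw [← pow_one D.S, ← hS, Nat.cast_ofNat]
  induction n with
  | zero => exact ⟨0, D.mem_I_zero _⟩
  | succ n ih =>
    obtain ⟨m, g, hg⟩ := ih
    obtain ⟨c, hc⟩ := ZMod.intCast_surjective (D.r g)
    obtain ⟨g', hg'⟩ := D.exists_of_r (g - c) (by rw [map_sub, map_intCast, hc, sub_self])
    refine ⟨m + c * 3 ^ n, g', ?_⟩
    rw [pow_succ', ← mul_assoc, ← hg', sub_mul, ← hg, hS']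
    push_cast
    abel

include hS in
theorem exists_pow (f : O) (hf : D.r f ≠ 0) (n : ℕ) : ∃ k : ℕ, f - 2 ^ k ∈ D.I (n + 1) := by
  have hS' : D.S = 3 := by rw [← pow_one D.S, ← hS, Nat.cast_ofNat]
  obtain ⟨m, hm⟩ := exists_int D hS f (n + 1)
  have h1 := D.mem_I_one.1 (D.I_anti (Nat.le_add_left 1 n) hm)
  rw [map_sub, map_intCast, sub_eq_zero] at h1
  have h3 : ¬ (3 : ℤ) ∣ m := fun h => hf (by
    rw [h1]
    exact (ZMod.intCast_zmod_eq_zero_iff_dvd m 3).2 h)
  obtain ⟨k, q, hq⟩ := exists_two_pow n h3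
  refine ⟨k, ?_⟩
  have h4 : ((m : O) - 2 ^ k) ∈ D.I (n + 1) := by
    refine ⟨q, ?_⟩
    have h5 := congrArg (Int.cast : ℤ → O) (hq.trans (mul_comm _ _))
    push_cast at h5
    rw [hS']
    exact h5
  have h6 := (D.I (n + 1)).add_mem hm h4
  rwa [sub_add_sub_cancel] at h6

end Two

section Dense

variable {H : FormalGroup (ZMod 3)} [H.IsComm]

/-- multiplication by two -/
noncomputable def two (H : FormalGroup (ZMod 3)) [H.IsComm] : AutF H :=
  AutF.mk (multSeries H 2) ⟨isHom_multSeries H 2, by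
    rw [coeff_one_multSeries]
    exact IsUnit.of_mul_eq_one 2 (by decide)⟩

theorem two_pow_val (k : ℕ) : (two H ^ k).val = ((2 : EndF H) ^ k).val := by
  have h : ((AutF.toUnits (two H) : (EndF H)ˣ) : EndF H) = 2 := by
    apply EndF.ext
    have h2 := EndF.val_natCast (H := H) 2
    rw [Nat.cast_ofNat] at h2
    exact h2.symm
  rw [← h, ← Units.val_pow_eq_pow_val, ← map_pow]
  rfl

theorem two_sq_val : (two H ^ 2).val = multSeries H 4 := by
  rw [two_pow_val, ← EndF.val_natCast]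
  congr 1
  norm_num

/-- the powers of two are dense -/
theorem dense (hH : HondaOver 3 1 H) (γ : AutF H) (n : ℕ) :
    ∃ k : ℕ, ∀ i ≤ n, PowerSeries.coeff i γ.val = PowerSeries.coeff i (two H ^ k).val := by
  obtain ⟨k, hk⟩ := exists_pow hH.D hH.p_eq (AutF.toUnits γ : (EndF H)ˣ)
    (γ.cf_one_isUnit.ne_zero) n
  refine ⟨k, fun i hi => ?_⟩
  have h := (EndF.sub_mem_I_iff hH.frob hH.teich).1 hk i
    (lt_of_le_of_lt hi ((Nat.lt_succ_self n).trans (Nat.lt_pow_self (by norm_num))))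
  rw [two_pow_val]
  exact h

/-- an additive locally constant function which vanishes on four vanishes -/
theorem eq_zero_of_four (hH : HondaOver 3 1 H) (φ : AutF H → ZMod 3)
    (hadd : ∀ γ δ, φ (γ * δ) = φ δ + φ γ)
    (hlc : ∃ n, ∀ γ δ : AutF H, (∀ i ≤ n, PowerSeries.coeff i γ.val = PowerSeries.coeff i δ.val) →
      φ γ = φ δ) (h4 : φ (two H ^ 2) = 0) (γ : AutF H) : φ γ = 0 := by
  have h1 : φ 1 = 0 := by
    have h := hadd 1 1
    rw [mul_one] at h
    exact left_eq_add.1 h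
  have h2 : φ (two H) = 0 := by
    rw [sq, hadd] at h4
    have h3 : (3 : ZMod 3) = 0 := rfl
    linear_combination 2 * h4 - φ (two H) * h3
  have hk : ∀ k : ℕ, φ (two H ^ k) = 0 := by
    intro k
    induction k with
    | zero => rw [pow_zero, h1]
    | succ k ih => rw [pow_succ, hadd, ih, h2, add_zero]
  obtain ⟨n, hn⟩ := hlc
  obtain ⟨k, h⟩ := dense hH γ n
  rw [hn γ _ h, hk]

omit [H.IsComm] in
theorem coeff_four (hH : HondaOver 3 1 H) :
    PowerSeries.coeff 2 (multSeries H 4) = 0 ∧ PowerSeries.coeff 3 (multSeries H 4) = 1 := by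
  obtain ⟨G, hG⟩ := exists_FG_decomp H
  have h3 : multSeries H 3 = PowerSeries.X ^ 3 := hH.mult
  have hS : MvPowerSeries.HasSubst
      ![(PowerSeries.X ^ 3 : PowerSeries (ZMod 3)), (PowerSeries.X : PowerSeries (ZMod 3))] :=
    hasSubst_pair (PowerSeries.HasSubst.X_pow (by norm_num))
      (hasSubst_of_cc PowerSeries.constantCoeff_X)
  obtain ⟨u, hu⟩ : ∃ u : PowerSeries (ZMod 3), multSeries H 4 =
      PowerSeries.X ^ 3 + PowerSeries.X + PowerSeries.X ^ 4 * u := by
    refine ⟨(MvPowerSeries.subst ![(PowerSeries.X ^ 3 : PowerSeries (ZMod 3)),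
      (PowerSeries.X : PowerSeries (ZMod 3))] G : PowerSeries (ZMod 3)), ?_⟩
    rw [show (4 : ℕ) = 3 + 1 from rfl, multSeries_succ, h3, hG, MvPowerSeries.subst_add hS,
      MvPowerSeries.subst_add hS, MvPowerSeries.subst_mul hS, MvPowerSeries.subst_mul hS,
      MvPowerSeries.subst_X hS, MvPowerSeries.subst_X hS]
    rfl
  rw [hu]
  simp [PowerSeries.coeff_X_pow_mul', PowerSeries.coeff_X_pow, PowerSeries.coeff_X]

end Dense

end HOne

end Vale.Agent.P236Z.Det
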