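import Vale.Agent.P236Z.Det.Order

/-!
# P236, block DET: the list of classes, `LIST` and `LOW` from the blocks
-/

namespace Vale.Agent.P236Z.Det

open Vale.Agent.P251.F Vale.Agent.P251.I Vale.Agent.P251.F.Cob MvPolynomial LawRing

variable {n m : ℕ}

theorem II_eq (n : ℕ) :
    II n = Ideal.span {(3 : Cob Laz n), C (Laz.v 3 1), C (Laz.v 3 2)} := by
  rw [II, I_three, Ideal.map_span, Set.image_insert_eq, Set.image_pair, map_ofNat]

theorem mem_II {x : Cob Laz n} : x ∈ II n ↔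
    ∃ a b c : Cob Laz n, x = 3 * a + C (Laz.v 3 1) * b + C (Laz.v 3 2) * c := by
  rw [II_eq, Ideal.mem_span_insert]
  constructor
  · rintro ⟨a, z, hz, rfl⟩
    obtain ⟨b, c, rfl⟩ := Ideal.mem_span_pair.1 hz
    exact ⟨a, b, c, by ring⟩
  · rintro ⟨a, b, c, rfl⟩
    exact ⟨a, _, Ideal.mem_span_pair.2 ⟨b, c, rfl⟩, by ring⟩

theorem three_mul_mem (x : Cob Laz n) : 3 * x ∈ II n := mem_II.2 ⟨x, 0, 0, by ring⟩

theorem proj_mem_II {x : Cob Laz n} (w : ℤ) (hx : x ∈ II n) : proj w x ∈ II n := by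
  obtain ⟨a, b, c, rfl⟩ := mem_II.1 hx
  obtain ⟨a', ha⟩ := dvd_proj isWt_three w (dvd_mul_right (3 : Cob Laz n) a)
  obtain ⟨b', hb⟩ := dvd_proj ((wt_v 1).isWt_C n) w (dvd_mul_right _ b)
  obtain ⟨c', hc⟩ := dvd_proj ((wt_v 2).isWt_C n) w (dvd_mul_right _ c)
  rw [proj_add, proj_add, ha, hb, hc]
  exact mem_II.2 ⟨a', b', c', rfl⟩

theorem map_II_le (α : Fin (m + 1) → Fin (n + 1)) : (II m).map (Cob.map α) ≤ II n := by
  rw [II, Ideal.map_map, II]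
  have e : (Cob.map α : Cob Laz m →+* Cob Laz n).comp C =
      act ((univ Laz n).g (α 0)) (C : Laz →+* Cob Laz n) :=
    RingHom.ext fun a => by rw [RingHom.comp_apply, Cob.map, ev_C]; rfl
  rw [e, Laz.I_map, Laz.I_map]
  have e2 : Laz.univ.map (act ((univ Laz n).g (α 0)) (C : Laz →+* Cob Laz n)) =
      (univ Laz n).g (α 0) • Laz.univ.map (C : Laz →+* Cob Laz n) := law_act _ _
  rw [e2, Ih_smul]

theorem d_mem_sq {x : Cob Laz n} (hx : x ∈ II n ^ 2) : d n x ∈ II (n + 1) ^ 2 := by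
  rw [d_apply]
  refine Ideal.sum_mem _ fun i _ => zsmul_mem ?_ _
  have h1 : (II n ^ 2).map (Cob.map i.succAbove) ≤ II (n + 1) ^ 2 := by
    rw [Ideal.map_pow]
    exact Ideal.pow_right_mono (map_II_le _) 2
  exact h1 (Ideal.mem_map_of_mem _ hx)

theorem mem_II_of_three {y : Cob Laz n} (hy : 3 * y ∈ II n ^ 2) : y ∈ II n := by
  have key : ∀ x ∈ II n ^ 2, ∃ b ∈ II n, ∃ α β γ : Cob Laz n, x = 3 * b +
      (α * C (Laz.v 3 1) ^ 2 + β * (C (Laz.v 3 1) * C (Laz.v 3 2)) + γ * C (Laz.v 3 2) ^ 2) := by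
    intro x hx
    rw [pow_two] at hx
    refine Submodule.mul_induction_on hx ?_ ?_
    · intro u hu v hv
      obtain ⟨a, b, c, rfl⟩ := mem_II.1 hu
      have hv' := hv
      obtain ⟨a', b', c', hv2⟩ := mem_II.1 hv'
      refine ⟨a * v + (C (Laz.v 3 1) * b + C (Laz.v 3 2) * c) * a', Ideal.add_mem _
        (Ideal.mul_mem_left _ _ hv) (Ideal.mul_mem_right _ _ (mem_II.2 ⟨0, b, c, by ring⟩)),
        b * b', b * c' + c * b', c * c', ?_⟩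
      rw [hv2]; ring
    · rintro u v ⟨b, hb, α, β, γ, rfl⟩ ⟨b', hb', α', β', γ', rfl⟩
      exact ⟨b + b', Ideal.add_mem _ hb hb', α + α', β + β', γ + γ', by ring⟩
  obtain ⟨b, hb, α, β, γ, e⟩ := key _ hy
  have m2 : ∀ x : Cob Laz n, x ∈ (Laz.I 3 2).map (C : Laz →+* Cob Laz n) ↔
      ∃ a b : Cob Laz n, a * 3 + b * C (Laz.v 3 1) = x := fun x => by
    rw [I_two, Ideal.map_span, Set.image_pair, map_ofNat, Ideal.mem_span_pair]
  have m1 : ∀ x : Cob Laz n, x ∈ (Laz.I 3 1).map (C : Laz →+* Cob Laz n) ↔ 3 ∣ x := fun x => by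
    rw [I_one, Ideal.map_span, Set.image_singleton, map_ofNat, Ideal.mem_span_singleton]
  have h1 : γ ∈ (Laz.I 3 2).map (C : Laz →+* Cob Laz n) := by
    refine mem_map_C_I_of_v_mul 3 (le_refl 2) (mem_map_C_I_of_v_mul 3 (le_refl 2) ?_)
    exact (m2 _).2 ⟨y - b, - (α * C (Laz.v 3 1) + β * C (Laz.v 3 2)), by linear_combination e⟩
  obtain ⟨γ1, γ2, rfl⟩ := (m2 _).1 h1
  have h2 : α * C (Laz.v 3 1) + (β + γ2 * C (Laz.v 3 2)) * C (Laz.v 3 2) ∈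
      (Laz.I 3 1).map (C : Laz →+* Cob Laz n) := by
    refine mem_map_C_I_of_v_mul 3 (le_refl 1) ((m1 _).2 ⟨y - b - γ1 * C (Laz.v 3 2) ^ 2, ?_⟩)
    linear_combination (-1 : Cob Laz n) * e
  obtain ⟨δ, hδ⟩ := (m1 _).1 h2
  have h3 : y = b + (C (Laz.v 3 1) * δ + C (Laz.v 3 2) * (γ1 * C (Laz.v 3 2))) := by
    apply three_cancel
    linear_combination e + C (Laz.v 3 1) * hδ
  rw [h3]
  exact Ideal.add_mem _ hb (mem_II.2 ⟨0, δ, γ1 * C (Laz.v 3 2), by ring⟩)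

/-- the ideal `(v_1, v_2)` modulo `3` -/
noncomputable def MM : Ideal (Cob L3 1) := (II 1).map (red 1)

theorem V_mem : V ∈ MM := by
  rw [← red_U]
  exact Ideal.mem_map_of_mem _ (mem_II.2 ⟨0, 1, 0, by ring⟩)

theorem V_pow_mem {i : ℕ} (hi : 2 ≤ i) (x : Cob L3 1) : V ^ i * x ∈ MM ^ 2 :=
  Ideal.mul_mem_right _ _ (Ideal.pow_le_pow_right hi (Ideal.pow_mem_pow V_mem i))

theorem pow3 {R : Type*} [CommRing R] {M : Ideal R} {x δ : R} (hx : x ∈ M) (hδ : δ ∈ M) (s : ℕ) :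
    ∃ S ∈ M ^ 2, (x + δ) ^ (s + 3) = x ^ (s + 3) + δ * S := by
  have h2 : ∀ a ∈ M, ∀ b ∈ M, a * b ∈ M ^ 2 := fun a ha b hb => by
    rw [pow_two]; exact Ideal.mul_mem_mul ha hb
  induction s with
  | zero =>
    exact ⟨3 * (x * x) + 3 * (x * δ) + δ * δ, Ideal.add_mem _ (Ideal.add_mem _
      (Ideal.mul_mem_left _ _ (h2 x hx x hx)) (Ideal.mul_mem_left _ _ (h2 x hx δ hδ)))
      (h2 δ hδ δ hδ), by ring⟩
  | succ s ih =>
    obtain ⟨S, hS, e⟩ := ih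
    refine ⟨(x + δ) * S + x ^ (s + 1) * (x * x), Ideal.add_mem _ (Ideal.mul_mem_left _ _ hS)
      (Ideal.mul_mem_left _ _ (h2 x hx x hx)), ?_⟩
    rw [show s + 1 + 3 = s + 3 + 1 by ring, pow_succ, e]
    ring

namespace Dat

variable {t1 : Cob Laz 1} (d : Dat t1)

theorem W_mem : d.W ∈ MM := by
  obtain ⟨q, hq⟩ := d.w2_v
  rw [W, show d.w2 = vb 2 + vb 1 * q by rw [← hq]; ring, map_add, map_mul]
  refine Ideal.add_mem _ ?_ (Ideal.mul_mem_right _ _ V_mem)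
  rw [vb, ← red_C]
  exact Ideal.mem_map_of_mem _ (mem_II.2 ⟨0, 0, 1, by ring⟩)

theorem exists_y {j n s : ℕ} (hn : n ≤ j) (h4 : 4 * (s * 3 ^ n) = 3 ^ (j + 1) + 3 ^ n) :
    ∃ (y : Cob L3 1) (c : ℤ) (z : L3), D (d.w2 ^ (s * 3 ^ n)) = V ^ 3 ^ n * y ∧
      y - D z - c * red 1 t1 ^ 3 ^ (j + 1) ∈ MM ^ 2 := by
  obtain ⟨l, rfl⟩ := Nat.exists_eq_add_of_le hn
  have hp : 0 < 3 ^ n := by positivity
  have h5 : 4 * s = 3 * 3 ^ l + 1 := by
    refine Nat.eq_of_mul_eq_mul_left hp ?_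
    rw [show 3 ^ (n + l + 1) = 3 ^ n * (3 * 3 ^ l) by ring] at h4
    linarith
  rcases l with _ | l
  · obtain rfl : s = 1 := by omega
    refine ⟨(V ^ 2 * d.t - d.t ^ 3) ^ 3 ^ n, 1, - d.g ^ 3 ^ (n + 1), ?_, ?_⟩
    · rw [one_mul, D_frob, D, d.f2', add_sub_cancel_left, mul_pow]
    · have e1 : (d.t ^ 3) ^ 3 ^ n = D (d.g ^ 3 ^ (n + 1)) - red 1 t1 ^ 3 ^ (n + 1) := by
        rw [← pow_mul, ← pow_succ', D_frob, ← sub_pow_char_pow, d.t_eq]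
        congr 1
        ring
      rw [sub_pow_char_pow, e1, D_neg, mul_pow, ← pow_mul]
      have := V_pow_mem (i := 2 * 3 ^ n) (by omega) (d.t ^ 3 ^ n)
      rwa [show V ^ (2 * 3 ^ n) * d.t ^ 3 ^ n - (D (d.g ^ 3 ^ (n + 1)) - red 1 t1 ^ 3 ^ (n + 1)) -
        -D (d.g ^ 3 ^ (n + 1)) - ((1 : ℤ) : Cob L3 1) * red 1 t1 ^ 3 ^ (n + 0 + 1) =
        V ^ (2 * 3 ^ n) * d.t ^ 3 ^ n by push_cast; ring]
  · have hl : 0 < 3 ^ l := by positivity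
    obtain ⟨s, rfl⟩ : ∃ s', s = s' + 3 := ⟨s - 3, by rw [pow_succ] at h5; omega⟩
    obtain ⟨S, hS, e⟩ := pow3 d.W_mem
      (Ideal.mul_mem_right (V ^ 2 * d.t - d.t ^ 3) _ V_mem) s
    refine ⟨((V ^ 2 * d.t - d.t ^ 3) * S) ^ 3 ^ n, 0, 0, ?_, ?_⟩
    · rw [pow_mul, D_frob, D, map_pow, map_pow, d.f2', e, add_sub_cancel_left, mul_assoc, mul_pow]
    · rw [D_zero, sub_zero, Int.cast_zero, zero_mul, sub_zero]
      exact Ideal.pow_mem_of_mem _ (Ideal.mul_mem_left _ _ hS) _ hp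

include d in
theorem list_aux (hL : LAND) {j : ℕ} (I : ℕ) : ∀ (Y : Cob L3 1) (z : L3),
    Wt (2 * (((3 ^ (j + 1) : ℕ) : ℤ) + (I : ℕ))) z → V ^ I * Y = D z →
    ∃ (c : ℤ) (z' : L3), Y - D z' - c * red 1 t1 ^ 3 ^ (j + 1) ∈ MM ^ 2 := by
  induction I with
  | zero =>
    intro Y z _ e
    refine ⟨0, z, ?_⟩
    rw [← e, pow_zero, one_mul, sub_self, Int.cast_zero, zero_mul, sub_zero]
    exact zero_mem _
  | succ I ih =>
    intro Y z hz e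
    have hD : V ^ (I + 1) ∣ D z := ⟨_, e.symm⟩
    rcases d.lead_step hL (S := 0) (fun m a h _ => h) (hz.cast (by push_cast; ring)) hD with
      ⟨z1, rfl⟩ | ⟨n, s, c, hn, hI', hs, h4, hc, z1, hz1⟩
    · refine ih Y z1 (hz.of_v_mul.cast (by push_cast; ring)) (mul_left_cancel₀ V_ne ?_)
      rw [← D_v1_mul, ← e]
      ring
    · obtain ⟨y, c', z', hy, hm⟩ := d.exists_y hn h4
      rw [Nat.add_zero] at hz1
      have hw : Wt (2 * (((3 ^ (j + 1) : ℕ) : ℤ) + (I + 1 : ℕ))) (vb 1 * z1) := by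
        rw [← hz1]
        exact hz.sub (Wt.int_mul c ((d.wt2.pow _).cast (by omega)))
      obtain ⟨c2, z2, h2⟩ := ih (Y - c * y) z1 (hw.of_v_mul.cast (by push_cast; ring))
        (mul_left_cancel₀ V_ne (by
          rw [← D_v1_mul, ← hz1, D_sub, D_int, hy, ← e, ← hI']
          ring))
      refine ⟨c2 + c * c', z2 + c * z', ?_⟩
      have := Ideal.add_mem _ h2 (Ideal.mul_mem_left _ (c : Cob L3 1) hm)
      rwa [D_add, D_int, show Y - (D z2 + c * D z') - ((c2 + c * c' : ℤ) : Cob L3 1) *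
        red 1 t1 ^ 3 ^ (j + 1) = Y - c * y - D z2 - c2 * red 1 t1 ^ 3 ^ (j + 1) +
          c * (y - D z' - c' * red 1 t1 ^ 3 ^ (j + 1)) by push_cast; ring]

end Dat

theorem listA (hL : LAND) (hH : HONE) {t1 : Cob Laz 1} (ht : IsT1 3 t1) (dd : Dat t1) {j : ℕ}
    {h : Cob Laz 1} (hw : IsWt (2 * ((3 ^ (j + 1) : ℕ) : ℤ)) h) (hd : (3 : Cob Laz 2) ∣ d 1 h) :
    ∃ (c : ℤ) (Z : Laz) (G h' : Cob Laz 1), G ∈ II 1 ^ 2 ∧
      h - D Z - c * t1 ^ 3 ^ (j + 1) = G + 3 * h' := by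
  have hp : 0 < 3 ^ j := by positivity
  obtain ⟨e, he⟩ : ∃ e, 3 ^ (j + 1) = e + 1 := ⟨3 ^ (j + 1) - 1, by omega⟩
  have h0 : d 1 (red 1 h) = 0 := by rw [← red_d, red_eq_zero]; exact hd
  obtain ⟨i, c, z, hz⟩ := hH t1 ht e (red 1 h) (isWt_cast (isWt_red hw) (by omega)) h0
  have hw1 : IsWt (2 * ((3 ^ (j + 1) : ℕ) : ℤ))
      (red 1 h - (c : Cob L3 1) * (V ^ e * red 1 t1)) :=
    isWt_sub (isWt_red hw) (isWt_int_mul c (isWt_cast
      ((isWt_V_pow e).mul (isWt_red (isWt_t1 ht))) (by omega)))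
  obtain ⟨z, hzw, hz2⟩ := exists_wt_eq ((isWt_V_pow i).mul hw1) hz
  obtain ⟨c', z', hm⟩ := dd.list_aux hL (j := j) i _ z (hzw.cast (by ring)) hz2
  have hm2 : red 1 h - D z' - c' * red 1 t1 ^ 3 ^ (j + 1) ∈ MM ^ 2 := by
    have := Ideal.add_mem _ hm (Ideal.mul_mem_left _ (c : Cob L3 1)
      (V_pow_mem (i := e) (by omega) (red 1 t1)))
    rwa [show red 1 h - (c : Cob L3 1) * (V ^ e * red 1 t1) - D z' -
      c' * red 1 t1 ^ 3 ^ (j + 1) + c * (V ^ e * red 1 t1) =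
      red 1 h - D z' - c' * red 1 t1 ^ 3 ^ (j + 1) by ring] at this
  rw [MM, ← Ideal.map_pow] at hm2
  obtain ⟨G, hG, hG2⟩ := (Ideal.mem_map_iff_of_surjective _ red_surjective).1 hm2
  obtain ⟨Z, rfl⟩ := mk3_surjective z'
  obtain ⟨h', hh'⟩ := red_eq_zero.1 (show red 1 (h - D Z - c' * t1 ^ 3 ^ (j + 1) - G) = 0 by
    rw [map_sub, hG2, map_sub, map_sub, map_mul, map_intCast, map_pow, red_D, sub_self])
  exact ⟨c', Z, G, h', hG, by rw [← hh']; ring⟩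

theorem descend (hL : LAND) (hH : HONE) {t1 : Cob Laz 1} (ht : IsT1 3 t1) (dd : Dat t1) {j : ℕ}
    {x : Cob Laz 2} (e : ℕ) : ∀ h : Cob Laz 1, IsWt (2 * ((3 ^ (j + 1) : ℕ) : ℤ)) h →
    (3 : Cob Laz 2) ^ (e + 4) ∣ 3 ^ (e + 1) * x - d 1 h →
    ∃ h' : Cob Laz 1, IsWt (2 * ((3 ^ (j + 1) : ℕ) : ℤ)) h' ∧
      (3 : Cob Laz 2) ^ 4 ∣ 3 * x - d 1 h' := by
  induction e with
  | zero => exact fun h hw hd => ⟨h, hw, by simpa using hd⟩
  | succ e ih =>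
    intro h hw hd
    obtain ⟨r, hr⟩ := hd
    obtain ⟨h', hw', hh'⟩ := order3 hL hH ht dd hw
      ⟨3 ^ e * x - 3 ^ (e + 3) * r, by linear_combination (-1 : Cob Laz 2) * hr⟩
    refine ih h' hw' ⟨r, three_cancel ?_⟩
    rw [hh'] at hr
    linear_combination hr

theorem four_cast (j n : ℕ) : ∃ q : ℤ, (4 : Cob Laz n) ^ (2 * 3 ^ (j + 1)) - 1 =
    3 ^ (j + 2) * ((3 * q + 2 : ℤ) : Cob Laz n) := by
  obtain ⟨q, hq⟩ := four_pow (j + 1)
  refine ⟨q, ?_⟩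
  have := congrArg (Int.cast : ℤ → Cob Laz n) hq
  push_cast at this ⊢
  exact this

theorem exists_inv (q : ℤ) (a : ℕ) : ∃ u v : ℤ, u * (3 * q + 2) + v * 3 ^ a = 1 :=
  IsCoprime.pow_right (⟨-1, q + 1, by ring⟩ : IsCoprime (3 * q + 2) 3)

theorem w0_eq (j : ℕ) : w0 j = 2 * ((3 ^ (j + 1) : ℕ) : ℤ) := by rw [w0]; push_cast; ring

theorem low_of (hS : SAH) (j : ℕ) : LOW j := by
  intro a
  refine ⟨j + 2 + a, fun f hf hd => ?_⟩
  obtain ⟨r, hr⟩ := hS.2 (2 * 3 ^ (j + 1)) _ f (isWt_cast hf (by rw [w0]; push_cast; ring)) hd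
  obtain ⟨q, hq⟩ := four_cast j 0
  obtain ⟨u, v, huv⟩ := exists_inv q a
  have h1 : ((3 * q + 2 : ℤ) : Cob Laz 0) * f = 3 ^ a * r := by
    refine mul_left_cancel₀ (pow_ne_zero (j + 2) (by norm_num : (3 : Cob Laz 0) ≠ 0)) ?_
    rw [← mul_assoc, ← hq, hr]
    ring
  have h2 := congrArg (Int.cast : ℤ → Cob Laz 0) huv
  refine ⟨u * r + v * f, ?_⟩
  push_cast at h1 h2
  linear_combination (u : Cob Laz 0) * h1 - f * h2

theorem list_of (hS : SAH) (hL : LAND) (hH : HONE) (hN : NORM) (hE : EVP) (j : ℕ) : LIST j := by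
  intro t1 ht
  obtain ⟨dd⟩ := exists_dat hN hE ht
  refine ⟨j + 5, fun x hx hd => ?_⟩
  obtain ⟨h0, hw0, r, hr⟩ := hS.1 (2 * 3 ^ (j + 1)) _ x
    (isWt_cast hx (by rw [w0]; push_cast; ring)) hd
  obtain ⟨q, hq⟩ := four_cast j 2
  obtain ⟨u, v, huv⟩ := exists_inv q 3
  have h2 := congrArg (Int.cast : ℤ → Cob Laz 2) huv
  obtain ⟨h, hw, r1, hr1⟩ := descend hL hH ht dd (x := x) (j + 1) ((u : Cob Laz 1) * h0)
    (isWt_int_mul u (isWt_cast hw0 (by push_cast; ring))) ⟨u * r + v * x, by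
      rw [d_int_mul]
      rw [hq] at hr
      push_cast at hr h2
      linear_combination (u : Cob Laz 2) * hr - 3 ^ (j + 2) * x * h2⟩
  obtain ⟨c, Z, G, h', hG, e⟩ := listA hL hH ht dd hw
    ⟨x - 27 * r1, by linear_combination (-1 : Cob Laz 2) * hr1⟩
  rw [← w0_eq] at hw
  have hT : IsWt (w0 j) ((c : Cob Laz 1) * t1 ^ 3 ^ (j + 1)) :=
    isWt_int_mul c (isWt_cast ((isWt_t1 ht).pow _) (by rw [w0_eq]; ring))
  have hdh : d 1 (h - D Z) = d 1 h := by rw [map_sub, d_D, sub_zero]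
  refine ⟨proj (w0 j) (h - D Z), c, isWt_proj _ _, ?_, ?_, ?_⟩
  · rw [← proj_d, hdh, proj_self hw.d]
    exact ⟨r1, hr1⟩
  · have h3 : h - D Z - c * t1 ^ 3 ^ (j + 1) ∈ II 1 := by
      rw [e]
      exact Ideal.add_mem _ (Ideal.pow_le_self two_ne_zero hG) (three_mul_mem _)
    have := proj_mem_II (w0 j) h3
    rwa [proj_sub, proj_self hT] at this
  · rintro ⟨c', rfl⟩
    have h4 : h - D Z = G + 3 * (h' + (c' : Cob Laz 1) * t1 ^ 3 ^ (j + 1)) := by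
      push_cast at e
      linear_combination e
    rw [h4, map_add, d_three_mul] at hdh
    have h5 : x - d 1 (h' + (c' : Cob Laz 1) * t1 ^ 3 ^ (j + 1)) - 27 * r1 ∈ II 2 := by
      apply mem_II_of_three
      have := d_mem_sq hG
      rwa [show 3 * (x - d 1 (h' + (c' : Cob Laz 1) * t1 ^ 3 ^ (j + 1)) - 27 * r1) = d 1 G by
        linear_combination hr1 - hdh]
    have h6 : x - d 1 (h' + (c' : Cob Laz 1) * t1 ^ 3 ^ (j + 1)) ∈ II 2 := by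
      have := Ideal.add_mem _ h5 (three_mul_mem (9 * r1))
      rwa [show x - d 1 (h' + (c' : Cob Laz 1) * t1 ^ 3 ^ (j + 1)) - 27 * r1 + 3 * (9 * r1) =
        x - d 1 (h' + (c' : Cob Laz 1) * t1 ^ 3 ^ (j + 1)) by ring] at this
    refine ⟨proj (w0 j) (h' + (c' : Cob Laz 1) * t1 ^ 3 ^ (j + 1)), isWt_proj _ _, ?_⟩
    have := proj_mem_II (w0 j) h6
    rwa [proj_sub, proj_self hx, proj_d] at this

end Vale.Agent.P236Z.Det
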