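import Vale.Agent.P236Z.Det.Bock

/-!
# P236, block DET: a `1`-cochain which is a cocycle modulo `9` is integral modulo `3`
-/

namespace Vale.Agent.P236Z.Det

open Vale.Agent.P251.F Vale.Agent.P251.I Vale.Agent.P251.F.Cob MvPolynomial

theorem eta_aux (x y : Cob Laz 1) (k : ℕ) : ∃ (e : ℕ) (r : Cob Laz 1), 3 ^ k = e + 1 ∧
    (x + 3 * y) ^ 3 ^ k = x ^ 3 ^ k + 3 ^ (k + 1) * (x ^ e * y + 3 * r) := by
  induction k with
  | zero => exact ⟨0, 0, rfl, by ring⟩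
  | succ k ih =>
    obtain ⟨e, r, he, h⟩ := ih
    refine ⟨3 * e + 2, (x ^ (e + 1)) ^ 2 * r + 3 ^ k * x ^ (e + 1) * (x ^ e * y + 3 * r) ^ 2 +
      3 ^ (2 * k) * (x ^ e * y + 3 * r) ^ 3, by rw [pow_succ, he]; ring, ?_⟩
    rw [pow_succ 3 k, pow_mul, pow_mul, h, he]
    ring

theorem exists_eta {t1 : Cob Laz 1} (ht : IsT1 3 t1) (k e : ℕ) (he : 3 ^ k = e + 1) :
    ∃ η : Cob Laz 1, d 1 η = 0 ∧ IsWt (2 * (3 ^ k : ℕ)) η ∧ red 1 η = V ^ e * red 1 t1 := by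
  obtain ⟨e', r, he', h⟩ := eta_aux U t1 k
  obtain rfl : e' = e := by omega
  have h1 : ((3 : ℤ) ^ (k + 1)) • (U ^ e' * t1 + 3 * r) = D (Laz.v 3 1 ^ 3 ^ k) := by
    rw [D, map_pow, map_pow, eR_U ht, h, zsmul_eq_mul]
    push_cast
    ring
  have h0 : (3 : ℤ) ^ (k + 1) ≠ 0 := by positivity
  refine ⟨U ^ e' * t1 + 3 * r, ?_, ?_, ?_⟩
  · apply Cob.eq_zero_of_smul h0
    rw [← map_zsmul, h1, d_D]
  · apply Cob.isWt_of_smul h0
    rw [h1]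
    exact ((wt_v1.pow _).cast (by ring)).isWt_D
  · rw [map_add, map_mul, map_mul, red_three, zero_mul, add_zero, map_pow, red_U]

theorem d_three_mul {n : ℕ} (x : Cob Laz n) : d n (3 * x) = 3 * d n x := by
  have := map_zsmul (d (N := Laz) n) (3 : ℤ) x
  rw [zsmul_eq_mul, zsmul_eq_mul] at this
  exact_mod_cast this

theorem d_int_mul {N : Type} [CommRing N] [LawRing N] {n : ℕ} (c : ℤ) (x : Cob N n) :
    d n ((c : Cob N n) * x) = c * d n x := by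
  have := map_zsmul (d (N := N) n) c x
  rwa [zsmul_eq_mul, zsmul_eq_mul] at this

theorem isWt_of_three_mul {n : ℕ} {w : ℤ} {x : Cob Laz n} (h : IsWt w (3 * x)) : IsWt w x := by
  apply Cob.isWt_of_smul (m := 3) (by norm_num)
  rw [zsmul_eq_mul]
  exact_mod_cast h

theorem exists_bock_zero (hH : HONE) {t1 : Cob Laz 1} (ht : IsT1 3 t1) {T I : ℕ} (hT : 1 ≤ T)
    (hI : 1 ≤ I) {h : Cob Laz 1} (hw : IsWt (2 * (T : ℤ)) h) (hd : (9 : Cob Laz 2) ∣ d 1 h)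
    {z : L3} (hz : Wt (2 * ((T : ℤ) + I)) z) (e : V ^ I * red 1 h = D z) :
    ∃ J, 3 ∣ J ∧ 3 ≤ J ∧ I ≤ J ∧ Bock J (vb 1 ^ (J - I) * z) 0 := by
  obtain ⟨Z0, hZw, hZ⟩ := exists_wt_lift ((wt_vb1.pow (2 * I)).mul hz)
  have h1 : red 1 (U ^ (3 * I) * h - D Z0) = 0 := by
    rw [map_sub, map_mul, map_pow, red_U, red_D, hZ, D_v_mul, ← e]
    ring
  obtain ⟨Y, hY⟩ := red_eq_zero.1 h1
  have hYw : IsWt (2 * (((T + 3 * I - 1 : ℕ) : ℤ) + 1)) Y := by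
    apply isWt_of_three_mul
    rw [← hY]
    have hc : ((T + 3 * I - 1 : ℕ) : ℤ) = T + 3 * I - 1 := by omega
    refine isWt_sub (isWt_cast (((wt_v1.isWt_C 1).pow (3 * I)).mul hw) ?_)
      (hZw.cast ?_).isWt_D
    · rw [hc]; push_cast; ring
    · rw [hc]; push_cast; ring
  have hYd : d 1 (red 1 Y) = 0 := by
    rw [← red_d, red_eq_zero]
    obtain ⟨r, hr⟩ := eR_U_pow ht (dvd_mul_right 3 I)
    obtain ⟨b, hb⟩ := hd
    have h2 : D (Laz.v 3 1 ^ (3 * I)) = 9 * r := by rw [D, map_pow, map_pow, hr]; ring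
    have h3 := d_C_mul (Laz.v 3 1 ^ (3 * I)) h
    rw [h2, hb, map_pow, map_mul (Cob.map _), map_ofNat] at h3
    refine ⟨C (Laz.v 3 1) ^ (3 * I) * b + Cob.map (Fin.succAbove (2 : Fin 3)) r *
      Cob.map (Fin.succAbove (0 : Fin 3)) h, three_cancel ?_⟩
    rw [← d_three_mul, ← hY, map_sub, d_D, h3]
    simp only [map_pow]
    ring
  obtain ⟨i, c, g, hg⟩ := hH t1 ht _ _ (isWt_red hYw) hYd
  obtain ⟨G, hG⟩ := mk3_surjective (vb 1 ^ (2 * i) * g)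
  obtain ⟨r, hr⟩ := eR_U_pow ht (dvd_mul_right 3 i)
  refine ⟨3 * i + 3 * I, by omega, by omega, by omega, Bock.of_dvd (e := - (V ^ (3 * i) *
    (c * (V ^ (T + 3 * I - 1) * red 1 t1)))) ⟨Laz.v 3 1 ^ (3 * i) * Z0 + 3 * G, h,
      D G - U ^ (3 * i) * Y + 3 * (r * eR Laz Z0), ?_, ?_, ?_⟩ ?_⟩
  · rw [map_add, map_mul, map_mul, map_ofNat, three_L3, zero_mul, add_zero, hZ, map_pow,
      show 3 * i + 3 * I - I = 3 * i + 2 * I by omega, pow_add, mul_assoc]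
    rfl
  · have h4 : eR Laz Z0 = C Z0 + (U ^ (3 * I) * h - 3 * Y) := by rw [eR_eq, ← hY]; ring
    simp only [D, map_add, map_mul, map_pow, map_ofNat, hr]
    rw [h4]
    ring
  · rw [map_add, map_sub, map_mul, map_mul, red_three, zero_mul, add_zero, red_D, hG, D_v_mul,
      map_pow, red_U, D, ← hg]
    ring
  · rw [show T + 3 * I - 1 = 3 * I + (T - 1) by omega, dvd_neg]
    exact ⟨c * (V ^ (T - 1) * red 1 t1), by ring⟩

namespace Dat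

variable {t1 : Cob Laz 1} (d : Dat t1)

theorem lead_step (hL : LAND) {j I S : ℕ}
    (hS : ∀ m a, IsA m a → 4 * m = 3 ^ (j + 1) + (I + 1) → IsA (m + S) a) {z : L3}
    (hz : Wt (2 * (((3 ^ (j + 1) : ℕ) : ℤ) + (I + 1 : ℕ)) + 8 * S) z) (hD : V ^ (I + 1) ∣ D z) :
    vb 1 ∣ z ∨ ∃ (n s : ℕ) (c : ℤ), n ≤ j ∧ I + 1 = 3 ^ n ∧ ¬ 3 ∣ s ∧
      4 * (s * 3 ^ n) = 3 ^ (j + 1) + 3 ^ n ∧ ¬ (3 : ℤ) ∣ c ∧
      vb 1 ∣ z - c * d.w2 ^ (s * 3 ^ n + S) := by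
  rcases d.land hL (w := 2 * (3 ^ (j + 1) + (I + 1)) + 8 * S) (hz.cast (by push_cast; ring))
    ((dvd_pow_self V (by omega)).trans hD) with h | ⟨m, c, hm, hc, h⟩
  · exact Or.inl h
  · have hpj : 0 < 3 ^ j := by positivity
    obtain ⟨m0, rfl⟩ : ∃ m0, m = m0 + S := ⟨m - S, by omega⟩
    obtain ⟨a, ha⟩ := exists_isA (m := m0) (by omega)
    have h4 : 4 * m0 = 3 ^ (j + 1) + (I + 1) := by omega
    have hb := d.bound hL (hS m0 a ha h4) hc h hD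
    obtain ⟨n, s, hn, hI, rfl, hs⟩ := arith1 ha h4 (by omega) hb
    exact Or.inr ⟨n, s, c, hn, hI, hs, by omega, hc, h⟩

theorem top_shift (ht : IsT1 3 t1) {n s N J : ℕ} (hs : ¬ 3 ∣ s) (hJ : 3 ∣ J)
    (hJ3 : 3 ≤ J) (hn : 3 ^ n ≤ J) (hN : J < 3 ^ N) :
    ∃ (X : L3) (κ q : Cob L3 1), Wt (8 * (s * 3 ^ n + 3 ^ N : ℕ)) X ∧
      vb 1 ∣ X - d.w2 ^ (s * 3 ^ n + 3 ^ N) ∧ V ^ 3 ^ n ∣ D X ∧ rho n ≤ J ∧
      Bock J (vb 1 ^ (J - 3 ^ n) * X) (V ^ (J - rho n) * (κ + V * q)) ∧ d.ε κ ≠ 0 ∧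
      IsWt (8 * (s * 3 ^ n + 3 ^ N : ℕ) - 2 * (3 ^ n : ℕ) + 2 * rho n) κ := by
  have hnN : n < N := by
    by_contra hc
    have : 3 ^ N ≤ 3 ^ n := Nat.pow_le_pow_right (by norm_num) (by omega)
    omega
  obtain ⟨l, rfl⟩ := Nat.exists_eq_add_of_lt hnN
  have hp : 0 < 3 ^ l := by positivity
  rw [show s * 3 ^ n + 3 ^ (n + l + 1) = (s + 3 * 3 ^ l) * 3 ^ n by ring]
  exact d.top ht (by omega) (by omega) hJ hJ3 hn

include d in
theorem bockQ (hL : LAND) (ht : IsT1 3 t1) {j N J P : ℕ} (hJ : 3 ∣ J) (hJ3 : 3 ≤ J)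
    (hN : 3 ^ (j + 1) + J < 3 ^ N) (I : ℕ) : I ≤ J →
    (∀ n, 4 ∣ 3 ^ (j + 1) + 3 ^ n → 3 ^ n ≤ I → rho n ≤ P) → ∀ z : L3,
    Wt (2 * (((3 ^ (j + 1) : ℕ) : ℤ) + (I : ℕ)) + 8 * (3 ^ N : ℕ)) z → V ^ I ∣ D z →
    ∃ e, Bock J (vb 1 ^ (J - I) * z) e ∧ V ^ (J - P) ∣ e := by
  induction I with
  | zero => exact fun _ _ z _ _ => ⟨0, bock_top ht hJ z, dvd_zero _⟩
  | succ I ih =>
    intro hI hP z hz hD
    have hpj : 0 < 3 ^ j := by positivity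
    have red1 : ∀ z1 : L3,
        Wt (2 * (((3 ^ (j + 1) : ℕ) : ℤ) + (I + 1 : ℕ)) + 8 * (3 ^ N : ℕ)) (vb 1 * z1) →
        V ^ (I + 1) ∣ D (vb 1 * z1) →
        ∃ e, Bock J (vb 1 ^ (J - (I + 1)) * (vb 1 * z1)) e ∧ V ^ (J - P) ∣ e := by
      intro z1 h1 h2
      rw [D_v1_mul] at h2
      rw [← mul_assoc, ← pow_succ, show J - (I + 1) + 1 = J - I by omega]
      exact ih (by omega) (fun n h h' => hP n h (by omega)) z1
        (h1.of_v_mul.cast (by push_cast; ring)) (V_cancel h2)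
    rcases d.lead_step hL (fun m a h h4 => h.shift (N := N) (by omega)) hz hD with ⟨z1, rfl⟩ |
      ⟨n, s, c, hn, hI', hs, h4, hc, h⟩
    · exact red1 z1 hz hD
    · obtain ⟨X, κ, q, hXw, hX, hDX, -, hB, -, -⟩ :=
        d.top_shift ht (n := n) (N := N) hs hJ hJ3 (by omega) (by omega)
      obtain ⟨z1, hz1⟩ := d.dvd_of_lead h hX
      obtain ⟨e, he, hde⟩ := red1 z1 (by
        rw [← hz1]
        refine hz.sub (Wt.int_mul c (hXw.cast ?_))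
        rw [hI']
        omega) (by
        rw [← hz1, D_sub, D_int]
        exact dvd_sub hD (Dvd.dvd.mul_left (by rw [hI']; exact hDX) _))
      refine ⟨e + c * (V ^ (J - rho n) * (κ + V * q)), ?_, dvd_add hde ?_⟩
      · have := he.add (hB.int_mul c)
        rwa [← hz1, ← hI', show vb 1 ^ (J - (I + 1)) * (z - c * X) +
          c * (vb 1 ^ (J - (I + 1)) * X) = vb 1 ^ (J - (I + 1)) * z by ring] at this
      · have := hP n ⟨s * 3 ^ n, h4.symm⟩ (by omega)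
        exact ((pow_dvd_pow _ (by omega)).mul_right _).mul_left _

theorem no_top (hL : LAND) (ht : IsT1 3 t1) {j n s J : ℕ} {c : ℤ} (hn : n ≤ j) (hs : ¬ 3 ∣ s)
    (h4 : 4 * (s * 3 ^ n) = 3 ^ (j + 1) + 3 ^ n) (hc : ¬ (3 : ℤ) ∣ c) {z : L3}
    (hz : Wt (8 * (s * 3 ^ n : ℕ)) z) (hl : vb 1 ∣ z - c * d.w2 ^ (s * 3 ^ n))
    (hD : V ^ 3 ^ n ∣ D z) (hJ : 3 ∣ J) (hJ3 : 3 ≤ J) (hnJ : 3 ^ n ≤ J)
    (hB : Bock J (vb 1 ^ (J - 3 ^ n) * z) 0) : False := by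
  obtain ⟨M, hM⟩ : ∃ M, 3 ^ (j + 1) + J < 3 ^ M := ⟨_, Nat.lt_pow_self (by norm_num)⟩
  have hMN : 3 ^ (M + 1) = 3 * 3 ^ M := by ring
  have hpj : 0 < 3 ^ j := by positivity
  have hB1 := hB.shift (y := d.w2 ^ 3 ^ M) (by
    have := d.V_dvd_D_frob 1 M
    rw [one_mul] at this
    exact (pow_dvd_pow _ (by omega)).trans this)
  rw [← pow_mul, ← pow_succ, mul_left_comm] at hB1
  obtain ⟨X, κ, q, hXw, hX, hDX, hρ, hB2, hκ, hκw⟩ :=
    d.top_shift ht (n := n) (N := M + 1) hs hJ hJ3 hnJ (by omega)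
  have hl' : vb 1 ∣ d.w2 ^ 3 ^ (M + 1) * z - c * d.w2 ^ (s * 3 ^ n + 3 ^ (M + 1)) := by
    rw [pow_add d.w2, show d.w2 ^ 3 ^ (M + 1) * z - c * (d.w2 ^ (s * 3 ^ n) *
      d.w2 ^ 3 ^ (M + 1)) = d.w2 ^ 3 ^ (M + 1) * (z - c * d.w2 ^ (s * 3 ^ n)) by ring]
    exact hl.mul_left _
  obtain ⟨z1, hz1⟩ := d.dvd_of_lead hl' hX
  have hp : 0 < 3 ^ n := by positivity
  obtain ⟨I, hI⟩ : ∃ I, 3 ^ n = I + 1 := ⟨3 ^ n - 1, by omega⟩
  have hρ1 := rho_pos n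
  have hw1 : Wt (8 * (s * 3 ^ n + 3 ^ (M + 1) : ℕ)) (vb 1 * z1) := by
    rw [← hz1]
    exact (((d.wt2.pow _).mul hz).cast (by push_cast; ring)).sub (Wt.int_mul c hXw)
  have hD1 : V ^ (I + 1) ∣ D (vb 1 * z1) := by
    rw [← hz1, D_sub, D_int, ← hI]
    exact dvd_sub (d.dvd_D_shift (by omega) hD) (hDX.mul_left _)
  rw [D_v1_mul] at hD1
  obtain ⟨e, he, hde⟩ := d.bockQ hL ht (j := j) (N := M + 1) (P := rho n - 1) hJ hJ3 (by omega) I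
    (by omega) (fun n' h h' => by
      have : n' < n := by
        by_contra hc
        have : 3 ^ n ≤ 3 ^ n' := Nat.pow_le_pow_right (by norm_num) (by omega)
        omega
      have := rho_lt ⟨s * 3 ^ n, h4.symm⟩ h this
      omega) z1 (hw1.of_v_mul.cast (by omega)) (V_cancel hD1)
  have hB3 := he.add (hB2.int_mul c)
  rw [show J - I = J - 3 ^ n + 1 by omega, pow_succ, mul_assoc, ← hz1,
    show vb 1 ^ (J - 3 ^ n) * (d.w2 ^ 3 ^ (M + 1) * z - c * X) + c * (vb 1 ^ (J - 3 ^ n) * X) =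
      vb 1 ^ (J - 3 ^ n) * (d.w2 ^ 3 ^ (M + 1) * z) by ring] at hB3
  obtain ⟨u, hu⟩ := hB3.unique hB1
  have hnM : n < M + 1 := by
    by_contra hc
    have : 3 ^ (M + 1) ≤ 3 ^ n := Nat.pow_le_pow_right (by norm_num) (by omega)
    omega
  have key := d.vanish hL (J - rho n) (2 * (3 ^ (j + 1) + 4 * 3 ^ (M + 1) + rho n)) u
    ((c : Cob L3 1) * κ) (by omega) (isWt_int_mul c (isWt_cast hκw (by omega))) ?_ ?_
  · rw [map_mul, map_intCast] at key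
    rcases mul_eq_zero.1 key with h | h
    · exact int_ne_zero_zmod hc h
    · exact hκ h
  · rw [show D u - V ^ (J - rho n) * ((c : Cob L3 1) * κ) =
      (D u - (e + c * (V ^ (J - rho n) * (κ + V * q)) - 0)) + e +
        V ^ (J - rho n + 1) * (c * q) by ring]
    exact dvd_add (dvd_add ((pow_dvd_pow _ (by omega)).trans hu)
      ((pow_dvd_pow _ (by omega)).trans hde)) (dvd_mul_right _ _)
  · intro m a ha _ e
    exact arith2 hn hnM ⟨s * 3 ^ n, h4.symm⟩ ha (by omega)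

include d in
theorem order_aux (hL : LAND) (hH : HONE) (ht : IsT1 3 t1) {j : ℕ} {h : Cob Laz 1}
    (hw : IsWt (2 * ((3 ^ (j + 1) : ℕ) : ℤ)) h) (hd : (9 : Cob Laz 2) ∣ Cob.d 1 h) (I : ℕ) :
    ∀ z : L3, Wt (2 * (((3 ^ (j + 1) : ℕ) : ℤ) + (I : ℕ))) z → V ^ I * red 1 h = D z →
    ∃ z', red 1 h = D z' := by
  induction I with
  | zero => exact fun z _ e => ⟨z, by rw [← e, pow_zero, one_mul]⟩
  | succ I ih =>
    intro z hz e
    have hD : V ^ (I + 1) ∣ D z := ⟨_, e.symm⟩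
    rcases d.lead_step hL (S := 0) (fun m a h _ => h) (hz.cast (by push_cast; ring)) hD with
      ⟨z1, rfl⟩ | ⟨n, s, c, hn, hI', hs, h4, hc, hl⟩
    · refine ih z1 (hz.of_v_mul.cast (by push_cast; ring)) (mul_left_cancel₀ V_ne ?_)
      rw [← D_v1_mul, ← e]
      ring
    · exfalso
      obtain ⟨J, hJ, hJ3, hIJ, hB⟩ := exists_bock_zero hH ht (Nat.one_le_pow _ _ (by norm_num))
        (by omega) hw hd hz e
      rw [hI'] at hB hD hIJ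
      exact d.no_top hL ht hn hs h4 hc (hz.cast (by omega)) hl hD hJ hJ3 hIJ hB

end Dat

/-- A `1`-cochain which is a cocycle modulo `9` is, modulo `3`, an integral cocycle. -/
theorem order3 (hL : LAND) (hH : HONE) {t1 : Cob Laz 1} (ht : IsT1 3 t1) (dd : Dat t1) {j : ℕ}
    {h : Cob Laz 1} (hw : IsWt (2 * ((3 ^ (j + 1) : ℕ) : ℤ)) h) (hd : (9 : Cob Laz 2) ∣ d 1 h) :
    ∃ h', IsWt (2 * ((3 ^ (j + 1) : ℕ) : ℤ)) h' ∧ d 1 h = 3 * d 1 h' := by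
  obtain ⟨e, he⟩ : ∃ e, 3 ^ (j + 1) = e + 1 :=
    ⟨3 ^ (j + 1) - 1, by have : 0 < 3 ^ (j + 1) := by positivity
                         omega⟩
  obtain ⟨η, hη, hηw, hηr⟩ := exists_eta ht (j + 1) e he
  have h0 : d 1 (red 1 h) = 0 := by
    rw [← red_d, red_eq_zero]
    exact (Dvd.intro 3 (by norm_num)).trans hd
  obtain ⟨i, c, z, hz⟩ := hH t1 ht e (red 1 h) (isWt_cast (isWt_red hw) (by omega)) h0
  have hw1 : IsWt (2 * ((3 ^ (j + 1) : ℕ) : ℤ)) (h - (c : Cob Laz 1) * η) := isWt_sub hw (isWt_int_mul c hηw)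
  have hd1 : d 1 (h - (c : Cob Laz 1) * η) = d 1 h := by rw [map_sub, d_int_mul, hη, mul_zero, sub_zero]
  have hz1 : V ^ i * red 1 (h - (c : Cob Laz 1) * η) = D z := by
    rw [map_sub, map_mul, map_intCast, hηr, hz, D]
  obtain ⟨z, hzw, hz2⟩ := exists_wt_eq ((isWt_V_pow i).mul (isWt_red hw1)) hz1
  obtain ⟨z', hz'⟩ := dd.order_aux hL hH ht hw1 (by rw [hd1]; exact hd) i z
    (hzw.cast (by ring)) hz2
  obtain ⟨z', hz'w, hz'⟩ := exists_wt_eq (isWt_red hw1) hz'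
  obtain ⟨Z, hZw, rfl⟩ := exists_wt_lift hz'w
  obtain ⟨h', hh'⟩ := red_eq_zero.1 (show red 1 (h - (c : Cob Laz 1) * η - D Z) = 0 by
    rw [map_sub, hz', red_D, sub_self])
  refine ⟨h', isWt_of_three_mul (by rw [← hh']; exact isWt_sub hw1 hZw.isWt_D), ?_⟩
  rw [← d_three_mul, ← hh', map_sub, hd1, d_D, sub_zero]

end Vale.Agent.P236Z.Det
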