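import Vale.Agent.P236Z.Det.X
import Vale.Agent.P236Z.Det.Arith

/-!
# P236, block DET: the induction on the power of `v_1`
-/

namespace Vale.Agent.P236Z.Det

open Vale.Agent.P251.F Vale.Agent.P251.I Vale.Agent.P251.F.Cob MvPolynomial

namespace Dat

variable {t1 : Cob Laz 1} (d : Dat t1)

theorem land (hL : LAND) {w : ℕ} {z : L3} (hz : Wt (w : ℤ) z) (h : V ∣ D z) :
    vb 1 ∣ z ∨ ∃ (m : ℕ) (c : ℤ), w = 8 * m ∧ ¬ (3 : ℤ) ∣ c ∧ vb 1 ∣ z - c * d.w2 ^ m := by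
  rcases hL w z hz h with h1 | ⟨m, c, hm, h1⟩
  · exact Or.inl h1
  · by_cases hc : (3 : ℤ) ∣ c
    · rw [int_eq_zero_L3 hc, zero_mul, sub_zero] at h1
      exact Or.inl h1
    · refine Or.inr ⟨m, c, hm, hc, ?_⟩
      have h2 : vb 1 ∣ d.w2 ^ m - vb 2 ^ m := d.w2_v.trans (sub_dvd_pow_sub_pow _ _ m)
      have h3 : z - c * d.w2 ^ m = (z - c * vb 2 ^ m) - c * (d.w2 ^ m - vb 2 ^ m) := by ring
      rw [h3]
      exact dvd_sub h1 (h2.mul_left _)

/-- `X` has leading term `w2 ^ m`, and its coboundary has leading term `V ^ a κ`, `ε κ ≠ 0` -/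
def Lead (m a : ℕ) (X : L3) (κ : Cob L3 1) : Prop :=
  Wt (8 * m) X ∧ vb 1 ∣ X - d.w2 ^ m ∧ IsWt (8 * m - 2 * a) κ ∧ d.ε κ ≠ 0 ∧
    ∃ q, D X = V ^ a * (κ + V * q)

theorem lead_zero {m : ℕ} (hm : ¬ 3 ∣ m) : ∃ κ, d.Lead m 1 (d.w2 ^ m) κ := by
  obtain ⟨s, rfl⟩ : ∃ s, m = s + 1 := ⟨m - 1, by omega⟩
  obtain ⟨q, hq⟩ := d.D_pow0 s
  refine ⟨_, (d.wt2.pow _).cast (by ring), by simp, ?_, ?_, q, by rw [pow_one]; exact hq⟩
  · rw [mul_assoc]
    refine isWt_int_mul _ (isWt_cast ((d.wtW.pow s).mul (d.wtt.pow 3)) ?_)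
    push_cast; ring
  · rw [map_mul, map_mul, map_pow, map_pow, d.εW, one_pow, mul_one, map_intCast]
    refine mul_ne_zero (int_ne_zero_zmod ?_) (pow_ne_zero _ d.εt)
    push_cast; omega

theorem lead_succ {i s a : ℕ} (hs : ¬ 3 ∣ s) (h2 : 2 ≤ s) (ha : a + 1 = 4 * 3 ^ i) :
    ∃ X κ, d.Lead (s * 3 ^ (i + 1)) a X κ := by
  obtain ⟨s, rfl⟩ : ∃ s', s = s' + 2 := ⟨s - 2, by omega⟩
  obtain ⟨X, c, ⟨hw, hv, q, hq⟩, hc⟩ := d.good s i
  obtain rfl : a = aa i := by have := aa_succ i; omega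
  have h4 : (aa i : ℤ) = 4 * 3 ^ i - 1 := by
    have : ((aa i + 1 : ℕ) : ℤ) = ((4 * 3 ^ i : ℕ) : ℤ) := by rw [ha]
    push_cast at this
    linarith
  refine ⟨X, _, hw.cast ?_, hv, ?_, ?_, q, hq⟩
  · rw [h4]; push_cast; ring
  · rw [mul_assoc]
    refine isWt_int_mul _ (isWt_cast ((d.wtW.pow _).mul d.wtt) ?_)
    rw [h4]; push_cast; ring
  · rw [map_mul, map_mul, map_pow, d.εW, one_pow, mul_one, map_intCast]
    exact mul_ne_zero (int_ne_zero_zmod (hc hs)) d.εt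

theorem exists_lead {m a : ℕ} (h : IsA m a) (hm : a < m) : ∃ X κ, d.Lead m a X κ := by
  rcases h with ⟨h, rfl⟩ | ⟨i, s, hs, rfl, h⟩
  · exact ⟨_, d.lead_zero h⟩
  · refine d.lead_succ hs ?_ h
    by_contra hc
    obtain rfl : s = 1 := by omega
    have : 0 < 3 ^ i := by positivity
    rw [pow_succ] at hm
    omega

theorem exists_inv {m a r : ℕ} (h : IsA m a) (hm : r ≤ m) (ha : r ≤ a) :
    ∃ X, Wt (8 * m) X ∧ vb 1 ∣ X - d.w2 ^ m ∧ V ^ r ∣ D X := by
  by_cases hlt : a < m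
  · obtain ⟨X, κ, h1, h2, -, -, q, hq⟩ := d.exists_lead h hlt
    exact ⟨X, h1, h2, by rw [hq]; exact (pow_dvd_pow _ ha).mul_right _⟩
  · rcases h with ⟨h, rfl⟩ | ⟨i, s, hs, rfl, h⟩
    · refine ⟨d.w2 ^ m, (d.wt2.pow _).cast (by ring), by simp, ?_⟩
      exact (pow_dvd_pow _ ha).trans (by rw [pow_one]; exact d.V_dvd_D_pow m)
    · by_cases h2 : 2 ≤ s
      · obtain ⟨X, κ, h1, h2, -, -, q, hq⟩ := d.lead_succ hs h2 h
        exact ⟨X, h1, h2, by rw [hq]; exact (pow_dvd_pow _ ha).mul_right _⟩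
      · obtain rfl : s = 1 := by omega
        refine ⟨d.w2 ^ (1 * 3 ^ (i + 1)), (d.wt2.pow _).cast (by ring), by simp, ?_⟩
        exact (pow_dvd_pow _ (by omega)).trans (d.V_dvd_D_frob 1 (i + 1))

theorem dvd_of_lead {g X : L3} {c : ℤ} {m : ℕ} (h : vb 1 ∣ g - c * d.w2 ^ m)
    (hX : vb 1 ∣ X - d.w2 ^ m) : ∃ g1, g - c * X = vb 1 * g1 := by
  have : g - c * X = (g - c * d.w2 ^ m) - c * (X - d.w2 ^ m) := by ring
  rw [this]
  exact dvd_sub h (hX.mul_left _)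

theorem D_v1_mul (z : L3) : D (vb 1 * z) = V * D z := by
  have := D_v_mul 1 z
  rwa [pow_one, pow_one] at this

/-- The main induction. -/
theorem vanish (hL : LAND) (r : ℕ) : ∀ (ω : ℕ) (g : L3) (w : Cob L3 1), 8 * (r + 1) ≤ ω →
    IsWt (ω : ℤ) w → V ^ (r + 1) ∣ D g - V ^ r * w →
    (∀ m a, IsA m a → a ≤ r → ω + 2 * a ≠ 8 * m) → d.ε w = 0 := by
  induction r using Nat.strong_induction_on with
  | _ r ih =>
    intro ω g w hω hw hg hbad
    rcases r with _ | r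
    · obtain ⟨q, hq⟩ := hg
      have := congrArg d.ε hq
      rw [map_sub, d.εD, pow_zero, one_mul, map_mul, map_pow, d.εV] at this
      simpa using this
    · have red1 : ∀ g1 : L3, V ^ (r + 1 + 1) ∣ D (vb 1 * g1) - V ^ (r + 1) * w → d.ε w = 0 := by
        intro g1 h1
        refine ih r (by omega) ω g1 w (by omega) hw (V_cancel ?_)
          fun m a h ha => hbad m a h (by omega)
        rw [D_v1_mul] at h1
        rwa [show V * (D g1 - V ^ r * w) = V * D g1 - V ^ (r + 1) * w by ring]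
      have hwt : IsWt ((ω + 2 * (r + 1) : ℕ) : ℤ) (V ^ (r + 1) * w) :=
        isWt_cast ((isWt_V_pow (r + 1)).mul hw) (by push_cast; ring)
      obtain ⟨g, hgw, hg⟩ := exists_wt_dvd (isWt_V_pow _) hwt hg
      have hgr : V ^ (r + 1) ∣ D g := by
        have h1 : V ^ (r + 1) ∣ D g - V ^ (r + 1) * w := (pow_dvd_pow _ (by omega)).trans hg
        have := dvd_add h1 (dvd_mul_right (V ^ (r + 1)) w)
        rwa [sub_add_cancel] at this
      rcases d.land hL hgw ((dvd_pow_self V (by omega)).trans hgr) with ⟨g1, rfl⟩ |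
        ⟨m, c, hm, hc, hgm⟩
      · exact red1 g1 hg
      · obtain ⟨a, ha⟩ := exists_isA (m := m) (by omega)
        rcases lt_trichotomy (r + 1) a with hlt | rfl | hlt
        · obtain ⟨X, -, hX, hDX⟩ := d.exists_inv (r := r + 1 + 1) ha (by omega) hlt
          obtain ⟨g1, hg1⟩ := d.dvd_of_lead hgm hX
          refine red1 g1 ?_
          rw [← hg1, D_sub, D_int, show D g - (c : Cob L3 1) * D X - V ^ (r + 1) * w =
            (D g - V ^ (r + 1) * w) - c * D X by ring]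
          exact dvd_sub hg (hDX.mul_left _)
        · exact absurd hm (hbad m _ ha le_rfl)
        · exfalso
          obtain ⟨X, κ, -, hX, hκw, hκ, q, hq⟩ := d.exists_lead ha (by omega)
          obtain ⟨g1, hg1⟩ := d.dvd_of_lead hgm hX
          obtain ⟨a, rfl⟩ : ∃ a', a = a' + 1 := ⟨a - 1, by have := ha.pos; omega⟩
          have key := ih a (by omega) (8 * m - 2 * (a + 1)) g1 (((-c : ℤ) : Cob L3 1) * κ)
            (by omega) (isWt_int_mul _ (isWt_cast hκw (by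
              rw [Nat.cast_sub (by omega)]; push_cast; ring))) (V_cancel ?_) ?_
          · rw [map_mul, map_intCast] at key
            rcases mul_eq_zero.1 key with h | h
            · exact int_ne_zero_zmod (fun h' => hc (dvd_neg.1 h')) h
            · exact hκ h
          · have e : V * (D g1 - V ^ a * (((-c : ℤ) : Cob L3 1) * κ)) =
                D g - V ^ (a + 1 + 1) * (c * q) := by
              rw [mul_sub, ← D_v1_mul, ← hg1, D_sub, D_int, hq]
              push_cast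
              ring
            rw [e]
            exact dvd_sub ((pow_dvd_pow _ (by omega)).trans hgr) (dvd_mul_right _ _)
          · intro m' a' h' ha' e
            exact ha.inj h' (by omega) (by omega)

theorem bound_large (hL : LAND) {m a b : ℕ} {c : ℤ} {z : L3} (ha : IsA m a) (hm : 2 * a ≤ m)
    (hc : ¬ (3 : ℤ) ∣ c) (hz : vb 1 ∣ z - c * d.w2 ^ m) (hD : V ^ b ∣ D z) : b ≤ a := by
  by_contra hb
  have hpos := ha.pos
  obtain ⟨X, κ, -, hX, hκw, hκ, q, hq⟩ := d.exists_lead ha (by omega)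
  obtain ⟨g1, hg1⟩ := d.dvd_of_lead hz hX
  obtain ⟨a, rfl⟩ : ∃ a', a = a' + 1 := ⟨a - 1, by omega⟩
  have key := d.vanish hL a (8 * m - 2 * (a + 1)) g1 (((-c : ℤ) : Cob L3 1) * κ)
    (by omega) (isWt_int_mul _ (isWt_cast hκw (by
      rw [Nat.cast_sub (by omega)]; push_cast; ring))) (V_cancel ?_) ?_
  · rw [map_mul, map_intCast] at key
    rcases mul_eq_zero.1 key with h | h
    · exact int_ne_zero_zmod (fun h' => hc (dvd_neg.1 h')) h
    · exact hκ h
  · have e : V * (D g1 - V ^ a * (((-c : ℤ) : Cob L3 1) * κ)) =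
        D z - V ^ (a + 1 + 1) * (c * q) := by
      rw [mul_sub, ← D_v1_mul, ← hg1, D_sub, D_int, hq]
      push_cast
      ring
    rw [e]
    exact dvd_sub ((pow_dvd_pow _ (by omega)).trans hD) (dvd_mul_right _ _)
  · intro m' a' h' ha' e
    exact ha.inj h' (by omega) (by omega)

theorem D_mul (x y : L3) : D (x * y) = eR L3 x * D y + D x * C y := by
  simp only [D, map_mul]; ring

theorem dvd_D_shift {b N : ℕ} (hb : b ≤ 3 ^ N) {z : L3} (hD : V ^ b ∣ D z) :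
    V ^ b ∣ D (d.w2 ^ 3 ^ N * z) := by
  rw [D_mul]
  refine dvd_add (hD.mul_left _) (Dvd.dvd.mul_right ?_ _)
  have := d.V_dvd_D_frob 1 N
  rw [one_mul] at this
  exact (pow_dvd_pow _ hb).trans this

/-- An invariant modulo `V ^ b` with leading term `c w2 ^ m` has `b ≤ a(m)`. -/
theorem bound (hL : LAND) {m a b : ℕ} {c : ℤ} {z : L3} (ha : IsA m a)
    (hc : ¬ (3 : ℤ) ∣ c) (hz : vb 1 ∣ z - c * d.w2 ^ m) (hD : V ^ b ∣ D z) : b ≤ a := by
  have hN : 4 * m + b < 3 ^ (4 * m + b) := Nat.lt_pow_self (by norm_num)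
  have hle := ha.le
  refine d.bound_large hL (ha.shift (N := 4 * m + b) (by omega)) (by omega) hc
    (z := d.w2 ^ 3 ^ (4 * m + b) * z) ?_ (d.dvd_D_shift (by omega) hD)
  rw [pow_add d.w2, show d.w2 ^ 3 ^ (4 * m + b) * z - c * (d.w2 ^ m * d.w2 ^ 3 ^ (4 * m + b)) =
    d.w2 ^ 3 ^ (4 * m + b) * (z - c * d.w2 ^ m) by ring]
  exact hz.mul_left _

end Dat

end Vale.Agent.P236Z.Det
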