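import Vale.Agent.P236Z.Det.Base

/-!
# P236, block DET: the elements `x_(i,s)` and the leading terms of their coboundaries
-/

namespace Vale.Agent.P236Z.Det

open Vale.Agent.P251.F Vale.Agent.P251.I Vale.Agent.P251.F.Cob MvPolynomial

/-- the data produced by the blocks `NORM` and `EVP` -/
structure Dat (t1 : Cob Laz 1) where
  w2 : L3
  w3 : L3
  g : L3
  t : Cob L3 1
  ε : Cob L3 1 →+* ZMod 3
  wt2 : Wt 8 w2
  wt3 : Wt 26 w3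
  wtg : Wt 2 g
  wtt : IsWt 2 t
  w2_v : vb 1 ∣ w2 - vb 2
  t_eq : t = - red 1 t1 + D g
  f2 : eR L3 w2 = C w2 + V ^ 3 * t - V * t ^ 3
  f3 : V ∣ eR L3 w3 - (C w3 + C w2 ^ 3 * t - C w2 * t ^ 9)
  εV : ε V = 0
  εW : ε (C w2) = 1
  εt1 : ε (red 1 t1) ≠ 0
  εD : ∀ z, ε (D z) = 0

theorem isWt_t1 {t1 : Cob Laz 1} (ht : IsT1 3 t1) : IsWt 2 t1 :=
  isWt_cast (BCocycle 3 (by norm_num) t1 ht).1 (by norm_num)

theorem exists_dat (hN : NORM) (hE : EVP) {t1 : Cob Laz 1} (ht : IsT1 3 t1) :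
    Nonempty (Dat t1) := by
  obtain ⟨w2, w3, g, t, h2, h3, hg, hv, ht', f2, f3⟩ := hN t1 ht
  obtain ⟨ε, e1, e2, e3, e4⟩ := hE t1 ht
  refine ⟨⟨w2, w3, g, t, ε, h2, h3, hg, ?_, hv, ht', f2, f3, e1, ?_, e3, fun z => ?_⟩⟩
  · rw [ht']
    exact (isWt_red (isWt_t1 ht)).neg.add hg.isWt_D
  · obtain ⟨q, hq⟩ := hv
    rw [show w2 = vb 2 + vb 1 * q by rw [← hq]; ring, map_add, map_mul, map_add, map_mul, e1, e2]
    ring
  · rw [D, map_sub, e4, sub_self]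

theorem pow1 {R : Type*} [CommRing R] (x δ : R) (s : ℕ) :
    ∃ q, (x + δ) ^ (s + 1) = x ^ (s + 1) + (s + 1 : ℕ) * x ^ s * δ + δ ^ 2 * q := by
  induction s with
  | zero => exact ⟨0, by simp⟩
  | succ s ih =>
    obtain ⟨q, hq⟩ := ih
    refine ⟨(s + 1 : ℕ) * x ^ s + q * (x + δ), ?_⟩
    rw [pow_succ, hq]
    push_cast
    ring

theorem pow0 {R : Type*} [CommRing R] (x δ : R) (s : ℕ) : ∃ q, (x + δ) ^ s = x ^ s + δ * q := by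
  obtain ⟨q, hq⟩ := sub_dvd_pow_sub_pow (x + δ) x s
  exact ⟨q, by rw [add_sub_cancel_left] at hq; rw [← hq]; ring⟩

theorem int_cube (c : ℤ) : (c : Cob L3 1) ^ 3 = c := by
  have := map_intCast (frobenius (Cob L3 1) 3) c
  rwa [frobenius_def] at this

theorem cube_add (x y : Cob L3 1) : (x + y) ^ 3 = x ^ 3 + y ^ 3 := add_pow_char x y 3

theorem D_cube (z : L3) : D (z ^ 3) = D z ^ 3 := by
  have := D_frob 1 z
  rwa [pow_one] at this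

namespace Dat

variable {t1 : Cob Laz 1} (d : Dat t1)

/-- `w2` as a cochain -/
noncomputable abbrev W : Cob L3 1 := C d.w2

theorem εt : d.ε d.t ≠ 0 := by
  rw [d.t_eq, map_add, d.εD, add_zero, map_neg]
  exact neg_ne_zero.2 d.εt1

theorem wtW : IsWt 8 d.W := d.wt2.isWt_C 1

theorem f2' : eR L3 d.w2 = d.W + V * (V ^ 2 * d.t - d.t ^ 3) := by rw [d.f2]; ring

theorem f2_cube : eR L3 d.w2 ^ 3 = d.W ^ 3 + V ^ 3 * (V ^ 6 * d.t ^ 3 - d.t ^ 9) := by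
  rw [d.f2', cube_add, mul_pow, sub_eq_add_neg, cube_add]
  ring

theorem D_pow0 (s : ℕ) : ∃ q, D (d.w2 ^ (s + 1)) =
    V * (((-(s + 1 : ℕ) : ℤ) : Cob L3 1) * d.W ^ s * d.t ^ 3 + V * q) := by
  obtain ⟨q, hq⟩ := pow1 d.W (V * (V ^ 2 * d.t - d.t ^ 3)) s
  refine ⟨(s + 1 : ℕ) * d.W ^ s * V * d.t + (V ^ 2 * d.t - d.t ^ 3) ^ 2 * q, ?_⟩
  rw [D, map_pow, map_pow, d.f2', hq]
  push_cast
  ring

theorem V_dvd_D_pow (s : ℕ) : V ∣ D (d.w2 ^ s) := by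
  obtain ⟨q, hq⟩ := pow0 d.W (V * (V ^ 2 * d.t - d.t ^ 3)) s
  refine ⟨(V ^ 2 * d.t - d.t ^ 3) * q, ?_⟩
  rw [D, map_pow, map_pow, d.f2', hq]
  ring

theorem V_dvd_D_frob (s k : ℕ) : V ^ 3 ^ k ∣ D (d.w2 ^ (s * 3 ^ k)) := by
  rw [pow_mul, D_frob]
  exact pow_dvd_pow_of_dvd (d.V_dvd_D_pow s) _

/-- `X` has leading term `w2 ^ M` and its coboundary has leading term `c V ^ a W ^ e t` -/
def Good (a e : ℕ) (c : ℤ) (M : ℕ) (X : L3) : Prop :=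
  Wt (2 * a + 8 * e + 2) X ∧ vb 1 ∣ X - d.w2 ^ M ∧
    ∃ q, D X = V ^ a * ((c : Cob L3 1) * d.W ^ e * d.t + V * q)

theorem good_one (s : ℕ) :
    ∃ X, d.Good 3 (3 * s + 5) (-(s + 2 : ℕ)) ((s + 2) * 3) X := by
  obtain ⟨q, hq⟩ := d.D_pow0 (s + 1)
  obtain ⟨r, hr⟩ := d.f3
  obtain ⟨q2, hq2⟩ := pow0 d.W (V * (V ^ 2 * d.t - d.t ^ 3)) (3 * s + 2)
  set c : ℤ := -(s + 2 : ℕ) with hc
  refine ⟨(d.w2 ^ (s + 2)) ^ 3 + (c : L3) * (vb 1 ^ 3 * (d.w2 ^ (3 * s + 2) * d.w3)), ?_, ?_, ?_⟩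
  · refine Wt.add (((d.wt2.pow (s + 2)).pow 3).cast ?_) (Wt.int_mul c
      (((wt_vb1.pow 3).mul ((d.wt2.pow (3 * s + 2)).mul d.wt3)).cast ?_))
    · push_cast; ring
    · push_cast; ring
  · exact ⟨(c : L3) * (vb 1 ^ 2 * (d.w2 ^ (3 * s + 2) * d.w3)), by rw [pow_mul]; ring⟩
  · refine ⟨V ^ 2 * q ^ 3 + c * (d.W ^ (3 * s + 2) * r +
      (V ^ 2 * d.t - d.t ^ 3) * q2 * eR L3 d.w3), ?_⟩
    have h3 : eR L3 d.w3 = C d.w3 + d.W ^ 3 * d.t - d.W * d.t ^ 9 + V * r := by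
      rw [← hr]; ring
    rw [D_add, D_cube, D_int, D_v_mul, hq, mul_pow, cube_add, mul_pow, mul_pow, int_cube, D,
      map_mul, map_mul, map_pow, map_pow, d.f2', hq2, h3]
    ring

theorem good_step {a e M : ℕ} {c : ℤ} {X : L3} (h : d.Good (a + 1) (e + 1) c M X) :
    ∃ X', d.Good (3 * (a + 1) + 2) (3 * (e + 1)) (c * (1 - (e + 1 : ℕ))) (M * 3) X' := by
  obtain ⟨hw, hv, q, hq⟩ := h
  obtain ⟨r, hr⟩ := d.f3
  obtain ⟨q1, hq1⟩ := pow1 (d.W ^ 3) (V ^ 3 * (V ^ 6 * d.t ^ 3 - d.t ^ 9)) e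
  obtain ⟨q2, hq2⟩ := pow0 (d.W ^ 3) (V ^ 3 * (V ^ 6 * d.t ^ 3 - d.t ^ 9)) e
  refine ⟨X ^ 3 + (c : L3) * (vb 1 ^ (3 * a + 2) * ((d.w2 ^ 3) ^ (e + 1) * d.w2)) +
    ((-(c * (e + 1 : ℕ)) : ℤ) : L3) * (vb 1 ^ (3 * (a + 1) + 2) * ((d.w2 ^ 3) ^ e * d.w3)),
    ?_, ?_, ?_⟩
  · refine Wt.add (Wt.add ((hw.pow 3).cast ?_) (Wt.int_mul c
      (((wt_vb1.pow _).mul (((d.wt2.pow 3).pow _).mul d.wt2)).cast ?_))) (Wt.int_mul _
      (((wt_vb1.pow _).mul (((d.wt2.pow 3).pow _).mul d.wt3)).cast ?_))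
    · push_cast; ring
    · push_cast; ring
    · push_cast; ring
  · have h1 : vb 1 ∣ X ^ 3 - (d.w2 ^ M) ^ 3 := hv.trans (sub_dvd_pow_sub_pow _ _ 3)
    obtain ⟨y, hy⟩ := h1
    refine ⟨y + (c : L3) * (vb 1 ^ (3 * a + 1) * ((d.w2 ^ 3) ^ (e + 1) * d.w2)) +
      ((-(c * (e + 1 : ℕ)) : ℤ) : L3) * (vb 1 ^ (3 * (a + 1) + 1) * ((d.w2 ^ 3) ^ e * d.w3)), ?_⟩
    rw [pow_mul]
    linear_combination hy
  · have h3 : eR L3 d.w3 = C d.w3 + d.W ^ 3 * d.t - d.W * d.t ^ 9 + V * r := by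
      rw [← hr]; ring
    refine ⟨q ^ 3 + c * ((e + 1 : ℕ) * (d.W ^ 3) ^ e * d.W * V ^ 5 * d.t ^ 3 +
      (e + 1 : ℕ) * (d.W ^ 3) ^ e * (V ^ 6 * d.t ^ 3 - d.t ^ 9) * (V ^ 2 * d.t - d.t ^ 3) +
      V ^ 2 * (V ^ 6 * d.t ^ 3 - d.t ^ 9) ^ 2 * q1 * eR L3 d.w2) -
      c * (e + 1 : ℕ) * ((d.W ^ 3) ^ e * r +
        V ^ 2 * (V ^ 6 * d.t ^ 3 - d.t ^ 9) * q2 * eR L3 d.w3), ?_⟩
    rw [D_add, D_add, D_cube, D_int, D_int, D_v_mul, D_v_mul, hq, mul_pow, cube_add, mul_pow,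
      mul_pow, int_cube, D, D]
    simp only [map_mul, map_pow]
    rw [d.f2_cube, hq1, hq2, d.f2', h3]
    push_cast
    ring

/-- the exponents `4 * 3 ^ i - 1` -/
def aa : ℕ → ℕ
  | 0 => 3
  | i + 1 => 3 * aa i + 2

theorem aa_succ (i : ℕ) : aa i + 1 = 4 * 3 ^ i := by
  induction i with
  | zero => rfl
  | succ i ih => rw [aa, pow_succ]; omega

theorem good (s i : ℕ) : ∃ (X : L3) (c : ℤ), d.Good (aa i) ((3 * s + 5) * 3 ^ i) c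
    ((s + 2) * 3 ^ (i + 1)) X ∧ (¬ 3 ∣ s + 2 → ¬ (3 : ℤ) ∣ c) := by
  induction i with
  | zero =>
    obtain ⟨X, hX⟩ := d.good_one s
    refine ⟨X, -(s + 2 : ℕ), by simpa [aa] using hX, fun h h' => h ?_⟩
    push_cast at h'
    omega
  | succ i ih =>
    obtain ⟨X, c, hX, hc⟩ := ih
    have hp : 0 < 3 ^ i := by positivity
    obtain ⟨a, ha⟩ : ∃ a, aa i = a + 1 := ⟨aa i - 1, by have := aa_succ i; omega⟩
    obtain ⟨e, he⟩ : ∃ e, (3 * s + 5) * 3 ^ i = e + 1 :=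
      ⟨(3 * s + 5) * 3 ^ i - 1, by have : 0 < (3 * s + 5) * 3 ^ i := by positivity
                                   omega⟩
    rw [ha, he] at hX
    obtain ⟨X', hX'⟩ := d.good_step hX
    refine ⟨X', c * (1 - (e + 1 : ℕ)), ?_, fun h h' => ?_⟩
    · rw [aa, ha, show (3 * s + 5) * 3 ^ (i + 1) = 3 * (e + 1) by rw [← he]; ring,
        show (s + 2) * 3 ^ (i + 1 + 1) = (s + 2) * 3 ^ (i + 1) * 3 by ring]
      exact hX'
    · rcases (Int.prime_three.dvd_mul).1 h' with h1 | h1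
      · exact hc h h1
      · rw [← he] at h1
        rcases i with _ | i
        · simp only [pow_zero, mul_one] at h1
          push_cast at h1
          omega
        · have h2 : (3 : ℤ) ∣ (((3 * s + 5) * 3 ^ (i + 1) : ℕ) : ℤ) := by
            exact_mod_cast (Dvd.intro_left ((3 * s + 5) * 3 ^ i) (by ring) :
              3 ∣ (3 * s + 5) * 3 ^ (i + 1))
          omega

end Dat

end Vale.Agent.P236Z.Det
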